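import Vale.Agent.P098.Regularity.Defs
import Vale.Agent.P098.Cert.Scalar
import Vale.Agent.P098.Cert.Subst
import Vale.Agent.P098.Cert.Bridge.Mid
import Vale.Agent.P098.Cert.Bridge.Node
import Vale.Agent.P098.Cert6.Final
import Vale.Agent.P098.Cert6.Tree.Hedge

/-!
P098: block B6 in dimensions five and six, from the landed certificates.
-/

open MeasureTheory Filter
open scoped Topology RealInnerProductSpace

namespace Vale.Agent.P098

open Cert in
/-- Stable cones with smooth cross-section are flat in dimension five. -/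
theorem coneBlock_five : ConeBlock 5 := by
  have node : ∀ s v τ : ℝ, s ∈ Set.Icc (0 : ℝ) 1 → v ∈ Set.Icc (0 : ℝ) 1 → τ ∈ Set.Icc (0 : ℝ) 1 →
      ∀ w₀ w₁ o R : ℝ, 0 ≤ o → 0 ≤ R →
        nodeRed (1 / 4) (6252502 / 100000000) vecT (jetM vecM (s, s ^ 2 + v * (1 - s ^ 2)))
            (jetC vecC (s, s ^ 2 + v * (1 - s ^ 2))) (chartMu τ) (chartA τ) s
            (v * (1 - s ^ 2)) w₀ w₁ o R ≤ 0 ∧
          nodeRed (1 / 4) (6252502 / 100000000) vecT (jetM vecM (s, s ^ 2 + v * (1 - s ^ 2)))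
            (jetC vecC (s, s ^ 2 + v * (1 - s ^ 2))) (chartMu τ) (-chartA τ) s
            (v * (1 - s ^ 2)) w₀ w₁ o R ≤ 0 := fun s v τ hs hv hτ w₀ w₁ o R ho hR =>
    ⟨nodeRed_pos_nonpos s v τ hs hv hτ w₀ w₁ o R ho hR,
      nodeRed_neg_nonpos s v τ hs hv hτ w₀ w₁ o R ho hR⟩
  have mid : ∀ s v τ : ℝ, s ∈ Set.Icc (0 : ℝ) 1 → v ∈ Set.Icc (0 : ℝ) 1 → τ ∈ Set.Icc (0 : ℝ) 1 →
      ∀ w₀ w₁ w₂ o R : ℝ, 0 ≤ o → 0 ≤ R →
        midRed (1 / 4) (6252502 / 100000000) vecT (jetM vecM (s, s ^ 2 + v * (1 - s ^ 2)))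
          (jetC vecC (s, s ^ 2 + v * (1 - s ^ 2))) (midMu τ) (midR τ) s
          (v * (1 - s ^ 2)) w₀ w₁ w₂ o R ≤ 0 := midRed_vec_nonpos
  have cls : ClassAll vecG vecM vecC vecT := fun s q hs hq h => by
    obtain ⟨h1, h2, h3, h4, h5, h6⟩ := scalar_vec hs h
    exact ⟨node_vec (by norm_num [vecT]) (by norm_num [vecT]) node hs hq h,
      mid_vec (κ := 6252502 / 100000000) (by norm_num [vecT]) (by norm_num [vecT]) mid hs hq h, h1, h2, h3, h4, h5, h6⟩
  have cert : ∀ u : Euc 5 → ℝ, IsSmoothCone u → IsStable u →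
      (∀ x, u x = 0) ∨ ∃ e : Euc 5, ‖e‖ = 1 ∧ ∀ x, u x = max ⟪e, x⟫ 0 := fun u hu hst =>
    flat_of_class (by norm_num [vecT]) contDiff_vec.1 contDiff_vec.2.1 contDiff_vec.2.2
      (fun p _ _ => by norm_num [vecG, quad]) cls edgeIneq_vec hu hst
  exact cert

open Cert6 in
/-- Stable cones with smooth cross-section are flat in dimension six. -/
theorem coneBlock_six : ConeBlock 6 := (stableConesSix_of_edge hedge6).1

end Vale.Agent.P098
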