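import Vale.Agent.P098.Regularity.Assemble.Line

/-!
P098: from the blocks to the statement that homogeneous global minimizers are zero or flat up to
dimension six.
-/

open MeasureTheory Filter
open scoped Topology ContDiff NNReal RealInnerProductSpace

namespace Vale.Agent.P098

/-- The blocks give flatness of every homogeneous global minimizer up to dimension six. -/
theorem minimizersFlat_le_six (hB : ∀ d, 2 ≤ d → d ≤ 6 → Blocks d)
    (hS : ∀ d, 1 ≤ d → d ≤ 5 → SplitBlock d) (hC : ∀ d, 2 ≤ d → d ≤ 6 → ConeBlock d) :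
    ∀ d, 1 ≤ d → d ≤ 6 → MinimizersFlat d := by
  intro d hd hd6
  rcases Nat.lt_or_ge d 2 with h | h
  · obtain rfl : d = 1 := by omega
    exact minimizersFlat_one
  · exact minimizersFlat_of_blocks contFlat_one hB hS hC d h hd6

/-- The same, spelled out. -/
theorem homogeneous_minimizers_flat_of_blocks (hB : ∀ d, 2 ≤ d → d ≤ 6 → Blocks d)
    (hS : ∀ d, 1 ≤ d → d ≤ 5 → SplitBlock d) (hC : ∀ d, 2 ≤ d → d ≤ 6 → ConeBlock d) :
    ∀ d, 1 ≤ d → d ≤ 6 → ∀ u : Euc d → ℝ, IsGlobalMinimizer u →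
      (∀ r : ℝ, 0 < r → ∀ᵐ x, u (r • x) = r * u x) →
        u =ᵐ[volume] 0 ∨ ∃ e : Euc d, ‖e‖ = 1 ∧ u =ᵐ[volume] fun x => max ⟪e, x⟫ 0 :=
  minimizersFlat_le_six hB hS hC

/-- Zero is a global minimizer. -/
theorem isGlobalMinimizer_zero (d : ℕ) : IsGlobalMinimizer fun _ : Euc d => (0 : ℝ) := by
  refine ⟨Eventually.of_forall fun _ => le_rfl, fun c R => ?_⟩
  have hg : HasWeakGrad (Metric.ball c R) (fun _ : Euc d => (0 : ℝ)) fun i => pd i fun _ => 0 :=
    hasWeakGrad_pd (C := 0) (LipschitzWith.const 0) Metric.isBounded_ball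
  refine ⟨⟨MemLp.zero', _, hg⟩, fun v g h hg' hv hh hn hK => ?_⟩
  have e : ∀ i, g i =ᵐ[volume.restrict (Metric.ball c R)] fun _ => (0 : ℝ) := fun i =>
    (hg'.unique Metric.isOpen_ball hg EventuallyEq.rfl i).trans
      (Eventually.of_forall fun x => by simp [pd])
  have e0 : sobolevEnergy (fun _ : Euc d => (0 : ℝ)) g (Metric.ball c R) = 0 := by
    rw [sobolevEnergy]
    have hP : posSet (fun _ : Euc d => (0 : ℝ)) = ∅ := by ext x; simp [posSet]
    rw [hP, measure_empty, add_zero]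
    refine (lintegral_congr_ae ?_).trans lintegral_zero
    filter_upwards [eventually_countable_forall.2 e] with x hx
    simp [hx]
  rw [e0]
  exact bot_le

end Vale.Agent.P098
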