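import Vale.Agent.P098.Regularity.B2.Chain
import Vale.Agent.P098.Regularity.B3.Lipschitz

/-!
P098: the flat solutions are global minimizers, by a calibration.
-/

open MeasureTheory Filter
open scoped Topology ContDiff NNReal RealInnerProductSpace

namespace Vale.Agent.P098

variable {d : ℕ} {e : Euc d}

lemma lipschitzWith_flat (he : ‖e‖ = 1) :
    LipschitzWith 1 fun x : Euc d => max ⟪e, x⟫ 0 := by
  refine LipschitzWith.max_const ?_ 0
  refine LipschitzWith.of_dist_le_mul fun x y => ?_
  rw [Real.dist_eq, ← inner_sub_right, dist_eq_norm]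
  simpa [he] using abs_real_inner_le_norm e (x - y)

lemma pd_flat (e : Euc d) (i : Fin d) (x : Euc d) :
    pd i (fun y => max ⟪e, y⟫ 0) x = if 0 < max ⟪e, x⟫ 0 then e i else 0 := by
  split_ifs with hx
  · have hx' : 0 < ⟪e, x⟫ := by simpa using hx
    have h : (fun y : Euc d => max ⟪e, y⟫ 0) =ᶠ[𝓝 x] innerSL ℝ e := by
      filter_upwards [(continuous_const.inner continuous_id).continuousAt.eventually_const_lt hx']
        with y hy
      simp only [id] at hy
      simp [max_eq_left hy.le]
    rw [pd_congr h i, pd, ContinuousLinearMap.fderiv, innerSL_apply_apply]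
    simp [EuclideanSpace.inner_single_right]
  · exact pd_eq_zero_of_eq_zero (fun y => le_max_right _ _)
      (le_antisymm (not_lt.1 hx) (le_max_right _ _)) i

/-- The half-plane solutions are global minimizers. -/
theorem isGlobalMinimizer_flat (he : ‖e‖ = 1) :
    IsGlobalMinimizer fun x : Euc d => max ⟪e, x⟫ 0 := by
  set u : Euc d → ℝ := fun x => max ⟪e, x⟫ 0 with hu
  have hL : LipschitzWith 1 u := lipschitzWith_flat he
  have hn : ∀ x, 0 ≤ u x := fun x => le_max_right _ _
  refine ⟨Eventually.of_forall hn, fun c R =>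
    ⟨⟨memLp_lipschitz hL c R, _, hasWeakGrad_pd hL Metric.isBounded_ball⟩,
      fun v g h hg hv hh hv0 hK => ?_⟩⟩
  obtain ⟨K, hKc, hKB, hKeq⟩ := hK
  rcases le_or_gt R 0 with hR | hR
  · simp [Metric.ball_eq_empty.2 hR, sobolevEnergy]
  set B : Set (Euc d) := Metric.ball c R with hB
  have := isFiniteMeasure_restrict (Metric.isBounded_ball : Bornology.IsBounded B)
  obtain ⟨r, hr, hKr⟩ := exists_pos_lt_subset_ball hR hKc.isClosed hKB
  have hP : MeasurableSet (posSet u) :=
    (isOpen_lt continuous_const hL.continuous).measurableSet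
  have hpdL : ∀ i, Integrable (fun x => pd i u x) (volume.restrict B) := fun i =>
    (memLp_pd hL Metric.isBounded_ball i).integrable one_le_two
  have hhI : ∀ i, Integrable (h i) (volume.restrict B) := fun i =>
    (hh.1 i).integrable one_le_two
  -- outside `K` the gradients agree
  have hoff : ∀ i, ∀ᵐ x ∂volume.restrict B, x ∉ K → h i x = pd i u x := by
    intro i
    have ho : IsOpen (B \ K) := Metric.isOpen_ball.sdiff hKc.isClosed
    have he' : v =ᵐ[volume.restrict (B \ K)] u := by
      rw [Filter.EventuallyEq, ae_restrict_iff' ho.measurableSet]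
      filter_upwards [(ae_restrict_iff' measurableSet_ball).1 hKeq] with x hx hxo
      exact hx hxo.1 hxo.2
    have h1 := (hh.mono Set.sdiff_subset).unique ho
      ((hasWeakGrad_pd hL Metric.isBounded_ball (B := B)).mono Set.sdiff_subset) he' i
    rw [Filter.EventuallyEq, ae_restrict_iff' ho.measurableSet] at h1
    rw [ae_restrict_iff' measurableSet_ball]
    filter_upwards [h1] with x hx hxB hxK
    exact hx ⟨hxB, hxK⟩
  -- the gradient vanishes where the competitor does
  have hzero : ∀ i, ∀ᵐ x ∂volume.restrict B, ¬ 0 < v x → h i x = 0 := by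
    intro i
    have hm : Metric.ball c r ⊆ B := Metric.ball_subset_ball hr.2.le
    have he' : v =ᵐ[volume.restrict (Metric.ball c r)] fun x => max (v x) 0 := by
      filter_upwards [ae_mono (Measure.restrict_mono hm le_rfl) hv0] with x hx
      rw [max_eq_left hx]
    have h1 := (hh.mono hm).unique Metric.isOpen_ball (hh.posPart hr.2 hv) he' i
    rw [Filter.EventuallyEq, ae_restrict_iff' measurableSet_ball] at h1
    rw [ae_restrict_iff' measurableSet_ball]
    filter_upwards [h1, (ae_restrict_iff' measurableSet_ball).1 (hoff i),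
      (ae_restrict_iff' measurableSet_ball).1 hKeq] with x hx hxo hxe hxB hxv
    by_cases hxK : x ∈ K
    · rw [hx (hKr hxK), Set.indicator_of_notMem (by simpa using hxv)]
    · have h0 : u x = 0 := le_antisymm (by rw [← hxe hxB hxK]; exact not_lt.1 hxv) (hn x)
      rw [hxo hxB hxK, pd_eq_zero_of_eq_zero hn h0]
  -- the calibration integrals agree
  have hint : ∀ i, ∫ x in B, h i x = ∫ x in B, pd i u x := by
    intro i
    set φ : ContDiffBump c := ⟨r, (r + R) / 2, hr.1, by linarith [hr.2]⟩ with hφ
    have hφs : HasCompactSupport (φ : Euc d → ℝ) := φ.hasCompactSupport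
    have hφB : tsupport (φ : Euc d → ℝ) ⊆ B := by
      rw [φ.tsupport_eq]
      exact Metric.closedBall_subset_ball (by show (r + R) / 2 < R; linarith [hr.2])
    have a := hh.2 i φ φ.contDiff hφs hφB
    have b := (hasWeakGrad_pd hL Metric.isBounded_ball (B := B)).2 i φ φ.contDiff hφs hφB
    have hone : ∀ x ∈ K, φ x = 1 ∧ pd i (φ : Euc d → ℝ) x = 0 := by
      intro x hx
      refine ⟨φ.one_of_mem_closedBall (Metric.ball_subset_closedBall (hKr hx)), ?_⟩
      have h1 : (φ : Euc d → ℝ) =ᶠ[𝓝 x] fun _ => 1 :=
        φ.eventuallyEq_one_of_mem_ball (hKr hx)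
      rw [pd_congr h1 i]
      simp [pd]
    have hab : ∫ x in B, v x * pd i (φ : Euc d → ℝ) x
        = ∫ x in B, u x * pd i (φ : Euc d → ℝ) x := by
      refine integral_congr_ae ?_
      filter_upwards [hKeq] with x hx
      by_cases hxK : x ∈ K
      · simp [(hone x hxK).2]
      · rw [hx hxK]
    have hφi : ∀ {F : Euc d → ℝ}, MemLp F 2 (volume.restrict B) →
        IntegrableOn (fun x => F x * φ x) B := fun hF =>
      integrableOn_mul_of_memLp Metric.isBounded_ball hF φ.continuous hφs
    have hpd2 := memLp_pd hL (Metric.isBounded_ball : Bornology.IsBounded B) i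
    have key : ∫ x in B, (h i x - pd i u x)
        = ∫ x in B, (h i x * φ x - pd i u x * φ x) := by
      refine integral_congr_ae ?_
      filter_upwards [hoff i] with x hx
      by_cases hxK : x ∈ K
      · simp [(hone x hxK).1]
      · simp [hx hxK]
    rw [integral_sub (hhI i) (hpdL i), integral_sub (hφi (hh.1 i)) (hφi hpd2)] at key
    linarith
  -- energies
  rw [sobolevEnergy_eq_ofReal Metric.isBounded_ball hg.1,
    sobolevEnergy_eq_ofReal Metric.isBounded_ball hh.1]
  refine ENNReal.ofReal_le_ofReal ?_
  have hsum : ∀ x, (∑ i, e i * pd i u x) = (posSet u).indicator (fun _ => (1 : ℝ)) x ∧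
      (∑ i, pd i u x ^ 2) = (posSet u).indicator (fun _ => (1 : ℝ)) x := by
    intro x
    have h1 : ∑ i, e i ^ 2 = 1 := by
      rw [← EuclideanSpace.real_norm_sq_eq, he, one_pow]
    by_cases hx : x ∈ posSet u
    · have hx' : ∀ i, pd i u x = e i := fun i => (pd_flat e i x).trans (if_pos hx)
      simp [hx', hx, ← sq, h1]
    · have hx' : ∀ i, pd i u x = 0 := fun i => (pd_flat e i x).trans (if_neg hx)
      simp [hx', hx]
  have hgu : ∀ i, g i =ᵐ[volume.restrict B] fun x => pd i u x := fun i =>
    hg.unique Metric.isOpen_ball (hasWeakGrad_pd hL Metric.isBounded_ball) EventuallyEq.rfl i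
  have hInd : ∫ x in B, (posSet u).indicator (fun _ => (1 : ℝ)) x
      = (volume.restrict B).real (posSet u) := by
    rw [integral_indicator hP]
    simp
  have eu : energyR u g B = 2 * (volume.restrict B).real (posSet u) := by
    have : ∫ x in B, ∑ i, g i x ^ 2 = (volume.restrict B).real (posSet u) := by
      rw [← hInd]
      refine integral_congr_ae ?_
      filter_upwards [eventually_countable_forall.2 hgu] with x hx
      simp [hx, (hsum x).2]
    rw [energyR, this]
    ring
  have hcal : (volume.restrict B).real (posSet u) = ∫ x in B, ∑ i, e i * h i x := by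
    rw [← hInd, integral_finsetSum _ fun i _ => (hhI i).const_mul _]
    simp only [integral_const_mul, hint]
    simp only [← integral_const_mul]
    rw [← integral_finsetSum _ fun i _ => (hpdL i).const_mul _]
    exact integral_congr_ae (Eventually.of_forall fun x => ((hsum x).1).symm)
  have hS : NullMeasurableSet (posSet v) (volume.restrict B) :=
    nullMeasurableSet_lt aemeasurable_const hv.1.aemeasurable
  have hle : ∫ x in B, 2 * ∑ i, e i * h i x
      ≤ ∫ x in B, ((∑ i, h i x ^ 2) + (posSet v).indicator (fun _ => (1 : ℝ)) x) := by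
    refine integral_mono_ae ((integrable_finsetSum _ fun i _ => (hhI i).const_mul _).const_mul _)
      ((integrableOn_sum_sq hh.1).add ((integrable_const _).indicator₀ hS)) ?_
    filter_upwards [eventually_countable_forall.2 hzero] with x hx
    by_cases hxv : x ∈ posSet v
    · simp only [Set.indicator_of_mem hxv]
      have h1 : ∑ i, e i ^ 2 = 1 := by
        rw [← EuclideanSpace.real_norm_sq_eq, he, one_pow]
      rw [← h1, Finset.mul_sum, ← Finset.sum_add_distrib]
      exact Finset.sum_le_sum fun i _ => by nlinarith [sq_nonneg (h i x - e i)]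
    · have h0 : ∀ i, h i x = 0 := fun i => hx i hxv
      simp [h0, Set.indicator_of_notMem hxv]
  rw [integral_const_mul, ← hcal, integral_add (integrableOn_sum_sq hh.1)
    ((integrable_const _).indicator₀ hS), integral_indicator₀ hS] at hle
  rw [eu, energyR]
  simpa using hle

end Vale.Agent.P098
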