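import Vale.Agent.P098.Regularity.Defs

/-!
P098: local extensions give a smooth cone, and homogeneity almost everywhere of a continuous
function is homogeneity.
-/

open MeasureTheory Filter
open scoped Topology ContDiff NNReal RealInnerProductSpace

namespace Vale.Agent.P098

variable {d : ℕ} {L : ℝ≥0} {c : ℝ}

/-- A continuous function homogeneous up to null sets is homogeneous. -/
theorem IsHomogeneousAE.isHomogeneous {u w : Euc d → ℝ} (hu : IsHomogeneousAE u)
    (hwu : w =ᵐ[volume] u) (hw : Continuous w) : IsHomogeneous w := by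
  intro r hr
  have hne : r ≠ 0 := hr.ne'
  have hq : Measure.QuasiMeasurePreserving (fun x : Euc d => r • x) volume volume :=
    ⟨measurable_const_smul r, by
      rw [Measure.map_addHaar_smul _ hne]
      exact Measure.smul_absolutelyContinuous⟩
  have : (fun x => w (r • x)) =ᵐ[volume] fun x => r * w x := by
    filter_upwards [hu r hr, hwu, hq.ae_eq_comp hwu] with x h1 h2 h3
    simp only [Function.comp_apply] at h3
    rw [h3, h1, h2]
  exact congr_fun ((Continuous.ae_eq_iff_eq volume (hw.comp (continuous_const_smul r))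
    (continuous_const.mul hw)).1 this)

lemma IsHomogeneous.apply_zero {u : Euc d → ℝ} (hu : IsHomogeneous u) : u 0 = 0 := by
  have := hu 2 two_pos 0
  rw [smul_zero] at this
  linarith

/-- Local extensions at all points of the free boundary off the origin give a smooth cone. -/
theorem isSmoothCone_of_extensions {u : Euc d → ℝ} (hu : IsRegMin L c u) (hh : IsHomogeneous u)
    (hext : ∀ x ∈ frontier (posSet u), x ≠ 0 → HasExtension u x) : IsSmoothCone u := by
  have hop : IsOpen (posSet u) := isOpen_lt continuous_const hu.lip.continuous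
  set S : Set (Euc d) := closure (posSet u) \ {0} with hS
  have hloc : ∀ x : S, ∃ (W : Set (Euc d)) (v : Euc d → ℝ), IsOpen W ∧ (x : Euc d) ∈ W ∧
      ContDiffOn ℝ ∞ v W ∧ Set.EqOn v u (W ∩ posSet u) ∧
      ∀ y ∈ W ∩ frontier (posSet u), ‖fderiv ℝ v y‖ = 1 := by
    rintro ⟨x, hx, hx0⟩
    by_cases hp : x ∈ posSet u
    · refine ⟨posSet u, u, hop, hp, hu.smooth, fun y _ => rfl, fun y hy => ?_⟩
      exact absurd hy.1 fun h => hy.2.2 (hop.interior_eq.symm ▸ h)
    · exact hext x ⟨hx, fun h => hp (interior_subset h)⟩ hx0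
  choose W v hWo hxW hv hvu hbd using hloc
  set O : Set (Euc d) := ⋃ x, W x with hO
  have hOo : IsOpen O := isOpen_iUnion hWo
  let M : TopologicalSpace.Opens (Euc d) := ⟨O, hOo⟩
  have : LocallyCompactSpace M := hOo.locallyCompactSpace
  have : SigmaCompactSpace M := sigmaCompactSpace_of_locallyCompact_secondCountable
  let U : S → Set M := fun x => Subtype.val ⁻¹' W x
  obtain ⟨χ, hχ⟩ := SmoothPartitionOfUnity.exists_isSubordinate
    (I := modelWithCornersSelf ℝ (Euc d)) (M := M) isClosed_univ U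
    (fun x => (hWo x).preimage continuous_subtype_val) fun y _ => by
      obtain ⟨x, hx⟩ := Set.mem_iUnion.1 y.2
      exact Set.mem_iUnion.2 ⟨x, hx⟩
  classical
  let g : M → ℝ := fun y => ∑ᶠ x, χ x y * v x y
  let G : Euc d → ℝ := fun y => if hy : y ∈ O then g ⟨y, hy⟩ else 0
  have hgs : ContMDiff (modelWithCornersSelf ℝ (Euc d)) (modelWithCornersSelf ℝ ℝ) ∞ g := by
    refine χ.contMDiff_finsum_smul (g := fun x y => v x y) fun x y hy => ?_
    have hyW : (y : Euc d) ∈ W x := hχ x hy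
    exact (contMDiffAt_iff_contDiffAt.2 ((hv x).contDiffAt ((hWo x).mem_nhds hyW))).comp y
      contMDiff_subtype_val.contMDiffAt
  have hGs : ContDiffOn ℝ ∞ G O := by
    intro y hy
    refine ContDiffAt.contDiffWithinAt (contMDiffAt_iff_contDiffAt.1 ?_)
    have e : (fun z : M => G z) = g := funext fun z => by simp [G]
    have h2 : ContMDiffAt (modelWithCornersSelf ℝ (Euc d)) (modelWithCornersSelf ℝ ℝ) ∞
        (fun z : M => G z) ⟨y, hy⟩ := e ▸ hgs ⟨y, hy⟩
    exact contMDiffAt_subtype_iff.1 h2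
  have hSO : S ⊆ O := fun x hx => Set.mem_iUnion.2 ⟨⟨x, hx⟩, hxW ⟨x, hx⟩⟩
  have hGu : ∀ y ∈ posSet u, y ∈ O → G y = u y := by
    intro y hy hyO
    simp only [G, g, dif_pos hyO]
    have h1 := χ.sum_eq_one (Set.mem_univ (⟨y, hyO⟩ : M))
    have hterm : ∀ x, χ x ⟨y, hyO⟩ * v x y = χ x ⟨y, hyO⟩ * u y := fun x => by
      by_cases h0 : χ x ⟨y, hyO⟩ = 0
      · simp [h0]
      · rw [hvu x ⟨hχ x (subset_tsupport _ h0), hy⟩]
    rw [finsum_congr hterm, ← finsum_mul, h1, one_mul]
  have hpos0 : posSet u ⊆ S := fun y hy => ⟨subset_closure hy, fun h => by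
    rw [Set.mem_singleton_iff] at h
    rw [h] at hy
    exact hy.ne' hh.apply_zero⟩
  refine ⟨hu.lip.continuous, hu.nonneg, hh, ⟨O, G, hOo, hSO, hGs,
    fun y hy => hGu y hy (hSO (hpos0 hy)), fun y hy hy0 => ?_⟩, hu.harmonic⟩
  set x : S := ⟨y, hy.1, hy0⟩ with hx
  rw [← hbd x y ⟨hxW x, hy⟩]
  have hyO : y ∈ O := hSO ⟨hy.1, hy0⟩
  congr 1
  have hne : (𝓝[posSet u] y).NeBot := mem_closure_iff_nhdsWithin_neBot.1 hy.1
  have c1 : Tendsto (fderiv ℝ G) (𝓝[posSet u] y) (𝓝 (fderiv ℝ G y)) :=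
    ((hGs.contDiffAt (hOo.mem_nhds hyO)).continuousAt_fderiv (by simp)).mono_left
      nhdsWithin_le_nhds
  have c2 : Tendsto (fderiv ℝ (v x)) (𝓝[posSet u] y) (𝓝 (fderiv ℝ (v x) y)) :=
    (((hv x).contDiffAt ((hWo x).mem_nhds (hxW x))).continuousAt_fderiv (by simp)).mono_left
      nhdsWithin_le_nhds
  refine tendsto_nhds_unique c1 (c2.congr' ?_)
  filter_upwards [self_mem_nhdsWithin,
    nhdsWithin_le_nhds ((hWo x).mem_nhds (hxW x))] with z hz hzW
  refine Filter.EventuallyEq.fderiv_eq ?_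
  filter_upwards [hop.mem_nhds hz, (hWo x).mem_nhds hzW, hOo.mem_nhds (hSO (hpos0 hz))]
    with a ha haW haO
  rw [hvu x ⟨haW, ha⟩, hGu a ha haO]

end Vale.Agent.P098
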