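import Vale.Agent.P098.Regularity.Assemble.Limit
import Vale.Agent.P098.Regularity.Assemble.Glue

/-!
P098: the induction on the dimension: the blocks give flatness of all homogeneous global
minimizers.
-/

open MeasureTheory Filter
open scoped Topology ContDiff NNReal RealInnerProductSpace

namespace Vale.Agent.P098

variable {d : ℕ} {L : ℝ≥0} {c : ℝ}

/-- Continuous homogeneous global minimizers are zero or flat. -/
def ContFlat (d : ℕ) : Prop :=
  ∀ w : Euc d → ℝ, IsGlobalMinimizer w → Continuous w → IsHomogeneous w → IsFlat w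

/-- Homogeneous global minimizers are zero or flat up to null sets. -/
def MinimizersFlat (d : ℕ) : Prop :=
  ∀ u : Euc d → ℝ, IsGlobalMinimizer u → IsHomogeneousAE u → IsFlatAE u

theorem MinimizersFlat.contFlat (h : MinimizersFlat d) : ContFlat d := fun w hw hc hh => by
  rcases h w hw fun r hr => Eventually.of_forall (hh r hr) with h0 | ⟨e, he, h0⟩
  · exact Or.inl (congr_fun ((Continuous.ae_eq_iff_eq volume hc continuous_const).1 h0))
  · exact Or.inr ⟨e, he, congr_fun ((Continuous.ae_eq_iff_eq volume hc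
      ((continuous_const.inner continuous_id).max continuous_const)).1 h0)⟩

/-- At a free boundary point off the origin a homogeneous minimizer extends smoothly, if those one
dimension lower are flat. -/
theorem hasExtension_of_blowUp (hc : 0 < c) (hB : Blocks (d + 1)) (hS : SplitBlock d)
    (ih : ContFlat d)
    (hrep : ∀ w : Euc (d + 1) → ℝ, IsGlobalMinimizer w → Continuous w → IsRegMin L c w)
    {u : Euc (d + 1) → ℝ} (hu : IsRegMin L c u) (hh : IsHomogeneous u) {x₀ : Euc (d + 1)}
    (hx₀ : x₀ ∈ frontier (posSet u)) (hne : x₀ ≠ 0) : HasExtension u x₀ := by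
  have hu0 : u x₀ = 0 := by
    refine le_antisymm (le_of_not_gt fun h => hx₀.2 ?_) (hu.nonneg x₀)
    rw [IsOpen.interior_eq (s := posSet u) (isOpen_lt continuous_const hu.lip.continuous)]
    exact h
  set r : ℕ → ℝ := fun k => 1 / ((k : ℝ) + 1) with hr
  have hr0 : ∀ k, 0 < r k := fun k => by positivity
  set v : ℕ → Euc (d + 1) → ℝ := fun k => rescale u x₀ (r k) with hv
  have hvk : ∀ k, IsRegMin L c (v k) := fun k => hu.rescale (hr0 k) x₀
  obtain ⟨φ, w, hφ, hwlip, hlim⟩ := exists_subseq_tendsto (fun k => (hvk k).lip) fun k => by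
    simp [hv, rescale, hu0]
  have hrt : Tendsto (fun k => r (φ k)) atTop (𝓝 0) :=
    tendsto_one_div_add_atTop_nhds_zero_nat.comp hφ.tendsto_atTop
  have hwmin : IsGlobalMinimizer w := hB.compact L c hc _ w (fun k => hvk (φ k)) hlim
  have hw : IsRegMin L c w := hrep w hwmin hwlip.continuous
  have hwh : IsHomogeneous w :=
    hB.weiss L c hc u x₀ (fun k => r (φ k)) w hu hu0 (fun k => hr0 _) hrt hlim
  have hinv0 : ∀ x, ∀ t : ℝ, w (x + t • x₀) = w x := by
    intro x t
    set s : ℕ → ℝ := fun k => 1 + r (φ k) * t with hs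
    have hs1 : Tendsto s atTop (𝓝 1) := by simpa [hs] using (hrt.mul_const t).const_add 1
    refine tendsto_nhds_unique (hlim.tendsto_comp hwlip.continuous.continuousAt
      tendsto_const_nhds (g := fun _ => x + t • x₀)) ?_
    have h2 : Tendsto (fun k => s k * v (φ k) ((s k)⁻¹ • x)) atTop (𝓝 (1 * w x)) := by
      refine hs1.mul (hlim.tendsto_comp hwlip.continuous.continuousAt ?_)
      simpa using (hs1.inv₀ one_ne_zero).smul_const x
    rw [one_mul] at h2
    refine h2.congr' ?_
    filter_upwards [hs1.eventually (lt_mem_nhds one_pos)] with k hk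
    have e : x₀ + r (φ k) • (x + t • x₀) = s k • (x₀ + r (φ k) • ((s k)⁻¹ • x)) := by
      rw [smul_add (s k), smul_comm (r (φ k)) (s k)⁻¹ x, smul_smul (s k) (s k)⁻¹,
        mul_inv_cancel₀ hk.ne', one_smul, hs, add_smul, one_smul, smul_add, smul_smul]
      abel
    simp only [hv, rescale, e, hh _ hk]
    ring
  set e : Euc (d + 1) := ‖x₀‖⁻¹ • x₀ with he
  have he1 : ‖e‖ = 1 := by
    rw [he, norm_smul, norm_inv, norm_norm, inv_mul_cancel₀ (norm_ne_zero_iff.2 hne)]
  have hinv : ∀ x, ∀ t : ℝ, w (x + t • e) = w x := fun x t => by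
    rw [he, smul_smul]
    exact hinv0 x _
  have he0 : e ≠ 0 := fun h => by rw [h, norm_zero] at he1; exact zero_ne_one he1
  have : Fact (Module.finrank ℝ (Euc (d + 1)) = d + 1) := ⟨finrank_euclideanSpace_fin⟩
  set b := OrthonormalBasis.fromOrthogonalSpanSingleton (𝕜 := ℝ) d he0 with hb
  set ι : Euc d →ₗᵢ[ℝ] Euc (d + 1) :=
    (ℝ ∙ e)ᗮ.subtypeₗᵢ.comp b.repr.symm.toLinearIsometry with hι
  have hιe : ∀ y, ⟪e, ι y⟫ = 0 := fun y =>
    Submodule.mem_orthogonal_singleton_iff_inner_right.1 (b.repr.symm y).2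
  have hdec : ∀ x, ∃ y, x = ι y + ⟪e, x⟫ • e := fun x => by
    have hm : x - ⟪e, x⟫ • e ∈ (ℝ ∙ e)ᗮ := by
      rw [Submodule.mem_orthogonal_singleton_iff_inner_right, inner_sub_right, inner_smul_right,
        real_inner_self_eq_norm_sq, he1]
      ring
    refine ⟨b.repr ⟨_, hm⟩, ?_⟩
    simp [hι]
  rcases ih (w ∘ ι) (hS L c hc w e hw he1 hinv ι hιe) (hwlip.continuous.comp ι.continuous)
    (fun s hs y => by simp [hwh s hs]) with h0 | ⟨e', he', h'⟩
  · exfalso
    have hw0 : ∀ x, w x = 0 := fun x => by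
      obtain ⟨y, hy⟩ := hdec x
      rw [hy, hinv]
      exact h0 y
    have hu1 := Metric.tendstoUniformlyOn_iff.1
      ((tendstoLocallyUniformly_iff_forall_isCompact.1 hlim) _
        (isCompact_closedBall (0 : Euc (d + 1)) 1)) c hc
    obtain ⟨k, hk⟩ := hu1.exists
    obtain ⟨y, hy, hcy⟩ := hu.nondeg x₀ hx₀.1 (r (φ k)) (hr0 _)
    have hym : (r (φ k))⁻¹ • (y - x₀) ∈ Metric.closedBall (0 : Euc (d + 1)) 1 := by
      rw [Metric.mem_closedBall, dist_zero_right, norm_smul, Real.norm_eq_abs,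
        abs_of_pos (inv_pos.2 (hr0 _)), inv_mul_le_iff₀ (hr0 _), mul_one]
      rwa [Metric.mem_closedBall, dist_eq_norm] at hy
    have h3 := hk _ hym
    have e3 : v (φ k) ((r (φ k))⁻¹ • (y - x₀)) = u y / r (φ k) := by
      simp only [hv, rescale, smul_smul, mul_inv_cancel₀ (hr0 (φ k)).ne', one_smul, add_sub_cancel]
    rw [hw0, e3, Real.dist_eq, zero_sub, abs_neg] at h3
    have h4 := (le_abs_self _).trans_lt h3
    rw [div_lt_iff₀ (hr0 _)] at h4
    linarith
  · have hw' : w = fun x => max ⟪ι e', x⟫ 0 := funext fun x => by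
      obtain ⟨y, hy⟩ := hdec x
      have h5 := h' y
      simp only [Function.comp_apply] at h5
      rw [hy, hinv, h5, inner_add_right, inner_smul_right, ι.inner_map_map, real_inner_comm e,
        hιe e', mul_zero, add_zero]
    obtain ⟨ε, hε, hflat⟩ := hB.flatness L c hc
    obtain ⟨k, hk⟩ := (eventually_flatIn (fun k => hvk (φ k)) hc
      (e := ι e') (by rw [ι.norm_map, he']) (hw' ▸ hlim) hε).exists
    exact hB.smooth L c hc u x₀ hu hu0 (hflat u x₀ (ι e') (r (φ k)) hu hu0
      (by rw [ι.norm_map, he']) (hr0 _) (isFlatIn_of_rescale (hr0 _) hk))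

/-- One step of the induction. -/
theorem minimizersFlat_step (hB : Blocks (d + 1)) (hS : SplitBlock d) (hC : ConeBlock (d + 1))
    (ih : ContFlat d) : MinimizersFlat (d + 1) := by
  intro u hu hh
  obtain ⟨L, c, hc, hrep⟩ := hB.rep
  obtain ⟨w, hwu, hw⟩ := hrep u hu
  have hcont : ∀ w : Euc (d + 1) → ℝ, IsGlobalMinimizer w → Continuous w → IsRegMin L c w := by
    intro v hv hvc
    obtain ⟨v', hv', hreg⟩ := hrep v hv
    exact (Continuous.ae_eq_iff_eq volume hreg.lip.continuous hvc).1 hv' ▸ hreg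
  have hwh : IsHomogeneous w := hh.isHomogeneous hwu hw.lip.continuous
  have hsc : IsSmoothCone w := isSmoothCone_of_extensions hw hwh fun x hx hx0 =>
    hasExtension_of_blowUp hc hB hS ih hcont hw hwh hx hx0
  rcases hC w hsc (hw.minim.isStable hsc (EventuallyEq.refl _ _)) with h | ⟨e, he, h⟩
  · exact Or.inl ((Filter.EventuallyEq.symm hwu).trans (Eventually.of_forall h))
  · exact Or.inr ⟨e, he, (Filter.EventuallyEq.symm hwu).trans (Eventually.of_forall h)⟩

/-- The blocks give flatness in every dimension from two to six. -/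
theorem minimizersFlat_of_blocks (h1 : ContFlat 1) (hB : ∀ d, 2 ≤ d → d ≤ 6 → Blocks d)
    (hS : ∀ d, 1 ≤ d → d ≤ 5 → SplitBlock d) (hC : ∀ d, 2 ≤ d → d ≤ 6 → ConeBlock d) :
    ∀ d, 2 ≤ d → d ≤ 6 → MinimizersFlat d := by
  intro d hd hd6
  induction d with
  | zero => omega
  | succ n ih =>
    refine minimizersFlat_step (hB _ hd hd6) (hS n (by omega) (by omega)) (hC _ hd hd6) ?_
    rcases Nat.lt_or_ge n 2 with hn | hn
    · have : n = 1 := by omega
      subst this
      exact h1
    · exact (ih hn (by omega)).contFlat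

end Vale.Agent.P098
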