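import Vale.Agent.P098.Regularity.Assemble.Scale

/-!
P098: limits of blow-ups along a subsequence, and flatness of rescalings close to a half-plane
solution.
-/

open MeasureTheory Filter
open scoped Topology ContDiff NNReal RealInnerProductSpace

namespace Vale.Agent.P098

variable {d : ℕ} {L : ℝ≥0} {c : ℝ}

/-- Pointwise convergence of equi-Lipschitz functions is locally uniform. -/
theorem tendstoLocallyUniformly_of_lipschitz {v : ℕ → Euc d → ℝ} {w : Euc d → ℝ}
    (hv : ∀ k, LipschitzWith L (v k)) (h : ∀ x, Tendsto (fun k => v k x) atTop (𝓝 (w x))) :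
    TendstoLocallyUniformly v w atTop := by
  have he : UniformEquicontinuous v := by
    rw [Metric.uniformEquicontinuous_iff]
    intro ε hε
    refine ⟨ε / (L + 1), by positivity, fun x y hxy k => ?_⟩
    refine lt_of_le_of_lt ((hv k).dist_le_mul x y) ?_
    rw [lt_div_iff₀ (by positivity)] at hxy
    nlinarith [dist_nonneg (x := x) (y := y), NNReal.coe_nonneg L]
  rw [tendstoLocallyUniformly_iff_forall_isCompact]
  intro K hK
  have h2 := (EquicontinuousOn.tendsto_uniformOnFun_iff_pi (𝔖 := {K : Set (Euc d) | IsCompact K})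
    (fun K hK => hK) (Set.sUnion_eq_univ_iff.2 fun x => ⟨{x}, isCompact_singleton, rfl⟩)
    (fun K _ => he.equicontinuous.equicontinuousOn K) atTop w).2 (tendsto_pi_nhds.2 h)
  exact UniformOnFun.tendsto_iff_tendstoUniformlyOn.1 h2 K hK

/-- Equi-Lipschitz functions vanishing at a point have a subsequence converging everywhere. -/
theorem exists_subseq_tendsto {v : ℕ → Euc d → ℝ} (hv : ∀ k, LipschitzWith L (v k))
    (h0 : ∀ k, v k 0 = 0) :
    ∃ (φ : ℕ → ℕ) (w : Euc d → ℝ), StrictMono φ ∧ LipschitzWith L w ∧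
      TendstoLocallyUniformly (fun k => v (φ k)) w atTop := by
  obtain ⟨D, hDc, hDd⟩ := TopologicalSpace.exists_countable_dense (Euc d)
  have : Countable D := hDc.to_subtype
  have hK : IsCompact (Set.pi Set.univ fun y : D => Set.Icc (-(L * ‖(y : Euc d)‖)) (L * ‖(y : Euc d)‖)) :=
    isCompact_univ_pi fun _ => isCompact_Icc
  have hmem : ∀ k, (fun y : D => v k y) ∈
      Set.pi Set.univ fun y : D => Set.Icc (-((L : ℝ) * ‖(y : Euc d)‖)) (L * ‖(y : Euc d)‖) := by
    intro k y _
    have := (hv k).dist_le_mul (y : Euc d) 0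
    rw [Real.dist_eq, h0, sub_zero, dist_zero_right] at this
    exact abs_le.1 this
  obtain ⟨a, -, φ, hφ, hlim⟩ := hK.isSeqCompact hmem
  have hpt : ∀ x, ∃ l, Tendsto (fun k => v (φ k) x) atTop (𝓝 l) := by
    intro x
    refine cauchySeq_tendsto_of_complete (Metric.cauchySeq_iff'.2 fun ε hε => ?_)
    obtain ⟨y, hy, hyD⟩ := hDd.exists_dist_lt x (show 0 < ε / (3 * (L + 1)) by positivity)
    have hy' := (tendsto_pi_nhds.1 hlim ⟨y, hy⟩).cauchySeq
    obtain ⟨N, hN⟩ := Metric.cauchySeq_iff'.1 hy' (ε / 3) (by positivity)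
    refine ⟨N, fun n hn => ?_⟩
    have hL : (L : ℝ) * dist x y < ε / 3 := by
      rw [lt_div_iff₀ (by positivity)] at hyD
      nlinarith [dist_nonneg (x := x) (y := y), NNReal.coe_nonneg L]
    have e1 := dist_triangle4 (v (φ n) x) (v (φ n) y) (v (φ N) y) (v (φ N) x)
    have e2 := (hv (φ n)).dist_le_mul x y
    have e3 := (hv (φ N)).dist_le_mul y x
    have e4 : dist (v (φ n) y) (v (φ N) y) < ε / 3 := hN n hn
    rw [dist_comm y x] at e3
    linarith
  choose w hw using hpt
  refine ⟨φ, w, hφ, LipschitzWith.of_dist_le_mul fun x y => ?_,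
    tendstoLocallyUniformly_of_lipschitz (fun k => hv (φ k)) hw⟩
  exact le_of_tendsto ((hw x).dist (hw y)) (Eventually.of_forall fun k => (hv (φ k)).dist_le_mul x y)

/-- Functions converging to a half-plane solution, growing linearly from their positivity sets, are
eventually flat in the unit ball. -/
theorem eventually_flatIn {v : ℕ → Euc d → ℝ} (hv : ∀ k, IsRegMin L c (v k)) (hc : 0 < c)
    {e : Euc d} (he : ‖e‖ = 1)
    (h : TendstoLocallyUniformly v (fun x => max ⟪e, x⟫ 0) atTop) {ε : ℝ} (hε : 0 < ε) :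
    ∀ᶠ k in atTop, IsFlatIn (v k) 0 e 1 ε := by
  set δ := min (ε / 2) (c * (ε / 4) / 2) with hδ
  have hδ0 : 0 < δ := lt_min (by linarith) (by positivity)
  have hu := Metric.tendstoUniformlyOn_iff.1
    ((tendstoLocallyUniformly_iff_forall_isCompact.1 h) _
      (isCompact_closedBall (0 : Euc d) (1 + ε))) δ hδ0
  filter_upwards [hu] with k hk x hx
  rw [Metric.mem_ball, dist_zero_right] at hx
  rw [sub_zero, mul_one]
  have hxm : x ∈ Metric.closedBall (0 : Euc d) (1 + ε) := by
    rw [Metric.mem_closedBall, dist_zero_right]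
    linarith
  have h1 := hk x hxm
  rw [Real.dist_eq, abs_lt] at h1
  have hδe : δ ≤ ε / 2 := min_le_left _ _
  have hle : ⟪e, x⟫ ≤ max ⟪e, x⟫ 0 := le_max_left _ _
  refine ⟨max_le (by linarith [h1.1, h1.2]) ((hv k).nonneg x), ?_⟩
  rcases lt_or_ge ⟪e, x⟫ (-(ε / 2)) with hlow | hhigh
  · have hz : v k x = 0 := by
      refine le_antisymm (le_of_not_gt fun hpos => ?_) ((hv k).nonneg x)
      obtain ⟨y, hy, hcy⟩ :=
        (hv k).nondeg x (subset_closure hpos) (ε / 4) (by positivity)
      rw [Metric.mem_closedBall, dist_eq_norm] at hy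
      have hym : y ∈ Metric.closedBall (0 : Euc d) (1 + ε) := by
        rw [Metric.mem_closedBall, dist_zero_right]
        linarith [norm_le_norm_add_norm_sub' y x, norm_sub_rev x y]
      have h2 := hk y hym
      rw [Real.dist_eq, abs_lt] at h2
      have hi : ⟪e, y⟫ ≤ 0 := by
        have hb := real_inner_le_norm e (y - x)
        rw [he, one_mul, inner_sub_right] at hb
        linarith
      rw [max_eq_right hi] at h2
      have : δ ≤ c * (ε / 4) / 2 := min_le_right _ _
      have : 0 < c * (ε / 4) := by positivity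
      linarith [h2.1]
    rw [hz]
    exact le_max_right _ _
  · refine le_trans ?_ (le_max_left _ _)
    rcases le_total 0 ⟪e, x⟫ with hp | hp
    · rw [max_eq_left hp] at h1
      linarith [h1.1]
    · rw [max_eq_right hp] at h1
      linarith [h1.1]

/-- Flatness of a rescaling is flatness at its scale. -/
theorem isFlatIn_of_rescale {u : Euc d → ℝ} {x₀ e : Euc d} {r ε : ℝ} (hr : 0 < r)
    (h : IsFlatIn (rescale u x₀ r) 0 e 1 ε) : IsFlatIn u x₀ e r ε := by
  intro x hx
  obtain ⟨a, b⟩ := h (r⁻¹ • (x - x₀)) (by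
    rw [Metric.mem_ball, dist_zero_right, norm_smul, Real.norm_eq_abs, abs_of_pos (inv_pos.2 hr),
      inv_mul_lt_iff₀ hr, mul_one]
    rwa [Metric.mem_ball, dist_eq_norm] at hx)
  have ex : x₀ + r • (r⁻¹ • (x - x₀)) = x := by
    rw [smul_smul, mul_inv_cancel₀ hr.ne', one_smul, add_sub_cancel]
  simp only [rescale, ex, sub_zero, mul_one, inner_smul_right] at a b
  have m : ∀ t : ℝ, r * max t 0 = max (r * t) 0 := fun t => by
    rw [mul_max_of_nonneg _ _ hr.le, mul_zero]
  have e1 : r * (r⁻¹ * ⟪e, x - x₀⟫) = ⟪e, x - x₀⟫ := by field_simp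
  constructor
  · have := mul_le_mul_of_nonneg_left a hr.le
    rwa [m, mul_sub, e1, mul_div_cancel₀ _ hr.ne', mul_comm r ε] at this
  · have := mul_le_mul_of_nonneg_left b hr.le
    rwa [m, mul_add, e1, mul_div_cancel₀ _ hr.ne', mul_comm r ε] at this

end Vale.Agent.P098
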