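import Vale.Agent.P098.Regularity.Assemble.Induction
import Vale.Agent.P098.Regularity.B3.Lipschitz

/-!
P098: homogeneous global minimizers on the line.
-/

open MeasureTheory Filter
open scoped Topology ContDiff NNReal RealInnerProductSpace

namespace Vale.Agent.P098

namespace LineMin

/-- The positive unit vector of the line. -/
noncomputable def e₁ : Euc 1 := EuclideanSpace.single 0 1

lemma eq_smul (x : Euc 1) : x = x 0 • e₁ := by
  ext i
  fin_cases i
  simp [e₁]

lemma inner_e₁ (x : Euc 1) : ⟪e₁, x⟫ = x 0 := by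
  simp [e₁, EuclideanSpace.inner_single_left]

/-- The coordinate as a continuous linear map. -/
noncomputable def coord : Euc 1 →L[ℝ] ℝ := innerSL ℝ e₁

lemma coord_apply (x : Euc 1) : coord x = x 0 := inner_e₁ x

lemma volume_coord (s : Set ℝ) (hs : MeasurableSet s) :
    volume {x : Euc 1 | x 0 ∈ s} = volume s := by
  have h1 : MeasurePreserving (fun x : Euc 1 => x 0) volume volume := by
    exact (volume_preserving_funUnique (Fin 1) ℝ).comp (PiLp.volume_preserving_ofLp (Fin 1))
  exact h1.measure_preimage hs.nullMeasurableSet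

lemma pd_affine {f : Euc 1 → ℝ} {x : Euc 1} {p q : ℝ}
    (h : f =ᶠ[𝓝 x] fun y => p * y 0 + q) : pd 0 f x = p := by
  have hd : HasFDerivAt (fun y : Euc 1 => p * y 0 + q) (p • coord) x := by
    simpa [coord_apply] using ((coord.hasFDerivAt (x := x)).const_mul p).add_const q
  rw [pd, h.fderiv_eq, hd.fderiv]
  simp [coord_apply]

/-- The two-sided linear function. -/
def two (a b : ℝ) (x : Euc 1) : ℝ := a * max (x 0) 0 + b * max (-(x 0)) 0

lemma exists_lipschitz_two (a b : ℝ) : ∃ C, LipschitzWith C (two a b) := by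
  refine ⟨‖a‖₊ * ‖coord‖₊ + ‖b‖₊ * ‖coord‖₊, ?_⟩
  have h1 : LipschitzWith ‖coord‖₊ fun x : Euc 1 => max (x 0) 0 := by
    simpa [Function.comp_def, coord_apply] using (coord.lipschitz.max_const 0)
  have h2 : LipschitzWith ‖coord‖₊ fun x : Euc 1 => max (-(x 0)) 0 := by
    have := (coord.lipschitz.neg).max_const 0
    simpa [Function.comp_def, coord_apply] using this
  exact ((lipschitzWith_smul a).comp h1).add ((lipschitzWith_smul b).comp h2)

lemma eq_two {w : Euc 1 → ℝ} (hh : IsHomogeneous w) : w = two (w e₁) (w (-e₁)) := by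
  funext x
  rcases lt_trichotomy (x 0) 0 with h | h | h
  · have e : x = (-(x 0)) • (-e₁) := by rw [smul_neg, neg_smul, neg_neg]; exact eq_smul x
    conv_lhs => rw [e, hh _ (neg_pos.2 h)]
    simp [two, h.le]
    ring
  · have e : x = 0 := by rw [eq_smul x, h, zero_smul]
    simp [two, e, hh.apply_zero]
  · conv_lhs => rw [eq_smul x, hh _ h]
    simp [two, h.le]
    ring

lemma energyR_eq {f : Euc 1 → ℝ} {C : ℝ≥0} (hf : LipschitzWith C f) (R : ℝ) :
    energyR f (fun i => pd i f) (Metric.ball 0 R) =
      ∫ x in Metric.ball (0 : Euc 1) R,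
        (pd 0 f x ^ 2 + (posSet f).indicator (fun _ => (1 : ℝ)) x) := by
  have hm : MeasurableSet (posSet f) :=
    (isOpen_lt continuous_const hf.continuous).measurableSet
  have := isFiniteMeasure_restrict (d := 1) (B := Metric.ball 0 R) Metric.isBounded_ball
  rw [integral_add (memLp_pd hf Metric.isBounded_ball 0).integrable_sq
    ((integrable_const (1 : ℝ)).indicator hm), energyR, integral_indicator_const _ hm]
  simp

lemma ball_eq (R : ℝ) : Metric.ball (0 : Euc 1) R = {x | x 0 ∈ Set.Ioo (-R) R} := by
  ext x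
  rw [Metric.mem_ball, dist_zero_right]
  conv_lhs => rw [eq_smul x, norm_smul, e₁, PiLp.norm_single]
  simp [abs_lt]

/-- A nonzero two-sided linear minimizer vanishes on one side. -/
lemma not_both {a b : ℝ} (ha : 0 < a) (hb : 0 < b) : ¬ IsGlobalMinimizer (two a b) := by
  intro hmin
  obtain ⟨C, hC⟩ := exists_lipschitz_two a b
  set w := two a b with hw
  set v : Euc 1 → ℝ := fun x => max (w x) 1 with hv
  have hvC : LipschitzWith C v := hC.max_const 1
  set R := a⁻¹ + b⁻¹ + 1 with hR
  have hR1 : 0 < R := by positivity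
  have hle : ∀ x : Euc 1, w x < 1 → x 0 ∈ Set.Ioo (-(b⁻¹)) a⁻¹ := fun x hx => by
    simp only [hw, two] at hx
    constructor
    · by_contra h
      have : b * b⁻¹ ≤ b * max (-(x 0)) 0 :=
        mul_le_mul_of_nonneg_left (le_trans (by linarith [not_lt.1 h]) (le_max_left _ _)) hb.le
      rw [mul_inv_cancel₀ hb.ne'] at this
      linarith [mul_nonneg ha.le (le_max_right (x 0) 0)]
    · by_contra h
      have : a * a⁻¹ ≤ a * max (x 0) 0 :=
        mul_le_mul_of_nonneg_left (le_trans (not_lt.1 h) (le_max_left _ _)) ha.le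
      rw [mul_inv_cancel₀ ha.ne'] at this
      linarith [mul_nonneg hb.le (le_max_right (-(x 0)) 0)]
  have hK : ∃ K, IsCompact K ∧ K ⊆ Metric.ball (0 : Euc 1) R ∧
      ∀ᵐ x ∂volume.restrict (Metric.ball (0 : Euc 1) R), x ∉ K → v x = w x := by
    refine ⟨Metric.closedBall 0 (a⁻¹ + b⁻¹), isCompact_closedBall _ _,
      Metric.closedBall_subset_ball (by linarith), Eventually.of_forall fun x hx => ?_⟩
    refine max_eq_left (not_lt.1 fun h => hx ?_)
    rw [Metric.mem_closedBall, dist_zero_right, eq_smul x, norm_smul, e₁, PiLp.norm_single]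
    have := hle x h
    simp only [Real.norm_eq_abs, norm_one, mul_one, abs_le]
    constructor <;> linarith [this.1, this.2, inv_pos.2 ha, inv_pos.2 hb]
  have key := hmin.energyR_le hC (memLp_lipschitz hvC 0 R)
    (hasWeakGrad_pd hvC Metric.isBounded_ball)
    (Eventually.of_forall fun x => zero_le_one.trans (le_max_right _ _)) hK
  rw [energyR_eq hC, energyR_eq hvC] at key
  set B := Metric.ball (0 : Euc 1) R with hB
  have hfin := isFiniteMeasure_restrict (d := 1) (B := B) Metric.isBounded_ball
  have hiw : IntegrableOn (fun x => pd 0 w x ^ 2 +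
      (posSet w).indicator (fun _ => (1 : ℝ)) x) B :=
    ((memLp_pd hC Metric.isBounded_ball 0).integrable_sq).add
      ((integrable_const _).indicator (isOpen_lt continuous_const hC.continuous).measurableSet)
  have hiv : IntegrableOn (fun x => pd 0 v x ^ 2 +
      (posSet v).indicator (fun _ => (1 : ℝ)) x) B :=
    ((memLp_pd hvC Metric.isBounded_ball 0).integrable_sq).add
      ((integrable_const _).indicator (isOpen_lt continuous_const hvC.continuous).measurableSet)
  have hnull : ∀ t : ℝ, ∀ᵐ x ∂(volume : Measure (Euc 1)), x 0 ≠ t := fun t => by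
    rw [ae_iff]
    simpa using volume_coord {t} (measurableSet_singleton t)
  set T : Set (Euc 1) := {x | x 0 ∈ Set.Ioo (0 : ℝ) a⁻¹} with hT
  have hc0 : Continuous fun y : Euc 1 => y 0 := (PiLp.continuous_apply 2 _ 0)
  have hTm : MeasurableSet T := (isOpen_Ioo.preimage hc0).measurableSet
  have hdiff : ∀ᵐ x ∂volume.restrict B, T.indicator (fun _ => a ^ 2) x ≤
      (pd 0 w x ^ 2 + (posSet w).indicator (fun _ => (1 : ℝ)) x) -
        (pd 0 v x ^ 2 + (posSet v).indicator (fun _ => (1 : ℝ)) x) := by
    refine ae_restrict_of_ae ?_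
    filter_upwards [hnull 0, hnull a⁻¹, hnull (-(b⁻¹))] with x h0 h1 h2
    have hcont : Continuous fun y : Euc 1 => y 0 := hc0
    have hwp : x ∈ posSet w := by
      show 0 < two a b x
      unfold two
      rcases lt_or_gt_of_ne h0 with h | h
      · rw [max_eq_right h.le, max_eq_left (by linarith)]
        nlinarith
      · rw [max_eq_left h.le, max_eq_right (by linarith)]
        nlinarith
    have hvp : x ∈ posSet v := show 0 < max (w x) 1 from zero_lt_one.trans_le (le_max_right _ _)
    rw [Set.indicator_of_mem hwp, Set.indicator_of_mem hvp]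
    by_cases hs : w x < 1
    · have e : v =ᶠ[𝓝 x] fun y => 0 * y 0 + 1 := by
        filter_upwards [hC.continuous.continuousAt.eventually (gt_mem_nhds hs)] with y hy
        simp [hv, hy.le]
      rw [pd_affine e]
      by_cases hxT : x ∈ T
      · rw [Set.indicator_of_mem hxT]
        have e2 : w =ᶠ[𝓝 x] fun y => a * y 0 + 0 := by
          filter_upwards [hcont.continuousAt.eventually (lt_mem_nhds hxT.1)] with y hy
          simp [hw, two, hy.le]
        rw [pd_affine e2]
        linarith
      · rw [Set.indicator_of_notMem hxT]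
        linarith [sq_nonneg (pd 0 w x)]
    · have hgt : 1 < w x := by
        refine (not_lt.1 hs).lt_of_ne fun h => ?_
        simp only [hw, two] at h
        rcases lt_or_gt_of_ne h0 with hn | hp
        · rw [max_eq_right hn.le, max_eq_left (by linarith)] at h
          exact h2 (by field_simp; linarith)
        · rw [max_eq_left hp.le, max_eq_right (by linarith)] at h
          exact h1 (by field_simp; linarith)
      have e : v =ᶠ[𝓝 x] w := by
        filter_upwards [hC.continuous.continuousAt.eventually (lt_mem_nhds hgt)] with y hy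
        simp [hv, hy.le]
      have hxT : x ∉ T := fun hxT => by
        have : w x < 1 := by
          simp only [hw, two]
          rw [max_eq_left hxT.1.le, max_eq_right (by linarith [hxT.1]), mul_zero, add_zero]
          calc a * x 0 < a * a⁻¹ := mul_lt_mul_of_pos_left hxT.2 ha
            _ = 1 := mul_inv_cancel₀ ha.ne'
        linarith
      rw [Set.indicator_of_notMem hxT, pd_congr e 0]
      linarith
  have h3 := integral_mono_ae ((integrable_const _).indicator hTm) (hiw.sub hiv) hdiff
  simp only [Pi.sub_apply] at h3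
  rw [integral_sub hiw hiv, integral_indicator_const _ hTm, measureReal_restrict_apply hTm] at h3
  have hsub : T ∩ B = T := Set.inter_eq_left.2 fun x hx => by
    rw [hB, ball_eq]
    exact ⟨by linarith [hx.1], by linarith [hx.2, inv_pos.2 hb]⟩
  rw [hsub, Measure.real, hT, volume_coord _ measurableSet_Ioo, Real.volume_Ioo, sub_zero,
    ENNReal.toReal_ofReal (inv_pos.2 ha).le, smul_eq_mul] at h3
  have h4 : 0 < a⁻¹ * a ^ 2 := by positivity
  linarith

lemma map_neg_restrict {d : ℕ} (c : Euc d) (R : ℝ) :
    Measure.map (Homeomorph.neg (Euc d)) (volume.restrict (Metric.ball c R)) =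
      volume.restrict (Metric.ball (-c) R) := by
  have h : (Homeomorph.neg (Euc d) : Euc d → Euc d) ⁻¹' Metric.ball (-c) R = Metric.ball c R := by
    ext x
    simp
  conv_lhs => rw [← h]
  rw [← Measure.restrict_map (Homeomorph.neg (Euc d)).continuous.measurable measurableSet_ball]
  congr 1
  exact Measure.map_neg_eq_self volume

lemma memLp_neg {d : ℕ} {f : Euc d → ℝ} {c : Euc d} {R : ℝ}
    (hf : MemLp f 2 (volume.restrict (Metric.ball (-c) R))) :
    MemLp (fun x => f (-x)) 2 (volume.restrict (Metric.ball c R)) := by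
  rw [← map_neg_restrict] at hf
  exact ((Homeomorph.neg (Euc d)).measurableEmbedding.memLp_map_measure_iff).1 hf

lemma hasWeakGrad_neg {d : ℕ} {f : Euc d → ℝ} {g : Fin d → Euc d → ℝ} {c : Euc d} {R : ℝ}
    (h : HasWeakGrad (Metric.ball (-c) R) f g) :
    HasWeakGrad (Metric.ball c R) (fun x => f (-x)) fun i x => -g i (-x) := by
  refine ⟨fun i => (memLp_neg (h.1 i)).neg, fun i φ hφ hs hsub => ?_⟩
  have hint : ∀ F : Euc d → ℝ,
      ∫ x in Metric.ball c R, F (-x) = ∫ x in Metric.ball (-c) R, F x := fun F => by
    rw [← map_neg_restrict c R]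
    exact ((Homeomorph.neg (Euc d)).measurableEmbedding.integral_map F).symm
  set ψ : Euc d → ℝ := φ ∘ Homeomorph.neg (Euc d) with hψ
  have key := h.2 i ψ (hφ.comp contDiff_neg) (hs.comp_homeomorph _) (by
    rw [hψ, tsupport_comp_eq_preimage φ (Homeomorph.neg (Euc d))]
    intro x hx
    have h2 : dist (-x) c < R := Metric.mem_ball.1 (hsub hx)
    rw [Metric.mem_ball, ← dist_neg_neg]
    simpa using h2)
  have hpd : ∀ x, pd i φ x = -pd i ψ (-x) := fun x => by
    have hd := (hφ.differentiable (by simp) x).hasFDerivAt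
    have h2 := ((neg_neg x).symm ▸ hd : HasFDerivAt φ (fderiv ℝ φ x) (- -x)).comp (-x)
      ((hasFDerivAt_id (-x)).neg)
    rw [pd, pd, show ψ = φ ∘ Neg.neg from rfl, h2.fderiv]
    simp
  have e1 : ∫ x in Metric.ball c R, f (-x) * pd i φ x =
      -∫ x in Metric.ball c R, (fun z => f z * pd i ψ z) (-x) := by
    rw [← integral_neg]
    exact integral_congr_ae (Eventually.of_forall fun x => by simp [hpd])
  have e2 : ∫ x in Metric.ball c R, -g i (-x) * φ x =
      -∫ x in Metric.ball c R, (fun z => g i z * ψ z) (-x) := by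
    rw [← integral_neg]
    exact integral_congr_ae (Eventually.of_forall fun x => by simp [hψ])
  rw [e1, e2, hint fun z => f z * pd i ψ z, hint fun z => g i z * ψ z, key]

lemma isGlobalMinimizer_neg {d : ℕ} {u : Euc d → ℝ} (hu : IsGlobalMinimizer u) :
    IsGlobalMinimizer fun x => u (-x) := by
  have hen : ∀ (f : Euc d → ℝ) (g : Fin d → Euc d → ℝ) (c : Euc d) (R : ℝ),
      sobolevEnergy (fun x => f (-x)) (fun i x => -g i (-x)) (Metric.ball c R) =
        sobolevEnergy f g (Metric.ball (-c) R) := fun f g c R => by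
    unfold sobolevEnergy
    rw [← map_neg_restrict c R, (Homeomorph.neg (Euc d)).measurableEmbedding.lintegral_map,
      (Homeomorph.neg (Euc d)).measurableEmbedding.map_apply]
    simp [posSet]
  refine ⟨?_, fun c R => ?_⟩
  · have : ∀ᵐ z ∂Measure.map (Homeomorph.neg (Euc d)) volume, 0 ≤ u z := by
      rw [show (⇑(Homeomorph.neg (Euc d)) : Euc d → Euc d) = fun x => -x from rfl,
        show Measure.map (fun x : Euc d => -x) volume = volume from Measure.map_neg_eq_self volume]
      exact hu.1
    exact (Homeomorph.neg (Euc d)).measurableEmbedding.ae_map_iff.1 this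
  obtain ⟨⟨h2, g₀, hg₀⟩, hmin⟩ := hu.2 (-c) R
  refine ⟨⟨memLp_neg h2, _, hasWeakGrad_neg hg₀⟩, fun v g k hg hv hk hnn hK => ?_⟩
  obtain ⟨K, hKc, hKB, hKeq⟩ := hK
  have hgn : ∀ (g : Fin d → Euc d → ℝ), (fun i x => -(fun i x => -g i (-x)) i (-x)) = g :=
    fun g => by funext i x; simp
  have hb : - -c = c := neg_neg c
  have hg' := hasWeakGrad_neg (c := -c) (by rw [hb]; exact hg)
  simp only [neg_neg] at hg'
  have push : ∀ P : Euc d → Prop, (∀ᵐ x ∂volume.restrict (Metric.ball c R), P x) →
      ∀ᵐ z ∂volume.restrict (Metric.ball (-c) R), P (-z) := by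
    intro P hP
    have := map_neg_restrict (-c) R
    rw [hb] at this
    rw [← this] at hP
    exact (Homeomorph.neg (Euc d)).measurableEmbedding.ae_map_iff.1 hP
  have key := hmin (fun x => v (-x)) _ _ hg' (memLp_neg (by rw [hb]; exact hv))
    (hasWeakGrad_neg (c := -c) (by rw [hb]; exact hk)) (push _ hnn)
    ⟨Homeomorph.neg (Euc d) '' K, hKc.image (Homeomorph.neg (Euc d)).continuous, by
      rintro z ⟨x, hx, rfl⟩
      show -x ∈ Metric.ball (-c) R
      rw [Metric.mem_ball, dist_neg_neg]
      exact hKB hx, ?_⟩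
  · have h1 := hen u (fun i x => -g i (-x)) c R
    have h3 := hen (fun x => v (-x)) (fun i x => -k i (-x)) c R
    rw [hgn] at h1 h3
    simp only [neg_neg] at h3
    rw [h1, h3]
    exact key
  · filter_upwards [push _ hKeq] with z hz hzK
    have := hz fun hm => hzK ⟨-z, hm, by simp⟩
    simpa using this

lemma measurableSet_coord (s : Set ℝ) (hs : MeasurableSet s) :
    MeasurableSet {x : Euc 1 | x 0 ∈ s} :=
  hs.preimage (PiLp.continuous_apply 2 (fun _ : Fin 1 => ℝ) 0).measurable

/-- A one-sided linear minimizer has slope one. -/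
lemma slope_one {a : ℝ} (ha : 0 < a) (hmin : IsGlobalMinimizer (two a 0)) : a = 1 := by
  by_contra hne
  obtain ⟨C, hC⟩ := exists_lipschitz_two a 0
  set w := two a 0 with hw
  have hwx : ∀ x : Euc 1, w x = a * max (x 0) 0 := fun x => by simp [hw, two]
  set φ : Euc 1 → ℝ := fun x => x 0 - (1 - a) with hφ
  have hφL : LipschitzWith ‖coord‖₊ φ := by
    have := coord.lipschitz.sub (LipschitzWith.const (1 - a))
    simpa [hφ, coord_apply, Function.comp_def] using this
  set v : Euc 1 → ℝ := fun x => if a < 1 then min (max (φ x) 0) (w x) else max (φ x) (w x)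
    with hv
  obtain ⟨D, hvD⟩ : ∃ D, LipschitzWith D v := by
    by_cases h : a < 1
    · exact ⟨_, by simpa [hv, if_pos h] using (hφL.max_const 0).min hC⟩
    · exact ⟨_, by simpa [hv, if_neg h] using hφL.max hC⟩
  have hv1 : ∀ x : Euc 1, x 0 ≤ 1 → v x = max (x 0 - (1 - a)) 0 := fun x hx => by
    simp only [hv, hφ, hwx]
    by_cases h : a < 1
    · rw [if_pos h, min_eq_left]
      rcases le_total (x 0) 0 with hx0 | hx0
      · rw [max_eq_right (by linarith), max_eq_right hx0, mul_zero]
      · rw [max_eq_left hx0]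
        refine max_le ?_ (mul_nonneg ha.le hx0)
        nlinarith
    · rw [if_neg h]
      rcases le_total (x 0) 0 with hx0 | hx0
      · rw [max_eq_right hx0, mul_zero]
      · rw [max_eq_left hx0, max_eq_left, max_eq_left] <;> nlinarith
  have hv2 : ∀ x : Euc 1, 1 ≤ x 0 → v x = w x := fun x hx => by
    simp only [hv, hφ, hwx]
    rw [max_eq_left (show (0 : ℝ) ≤ x 0 by linarith)]
    by_cases h : a < 1
    · rw [if_pos h, max_eq_left (by linarith), min_eq_right]
      nlinarith
    · rw [if_neg h, max_eq_right]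
      nlinarith
  set R := a + 3 with hR
  have hK : ∃ K, IsCompact K ∧ K ⊆ Metric.ball (0 : Euc 1) R ∧
      ∀ᵐ x ∂volume.restrict (Metric.ball (0 : Euc 1) R), x ∉ K → v x = w x := by
    refine ⟨Metric.closedBall 0 (a + 2), isCompact_closedBall _ _,
      Metric.closedBall_subset_ball (by linarith), Eventually.of_forall fun x hx => ?_⟩
    rw [Metric.mem_closedBall, dist_zero_right, eq_smul x, norm_smul, e₁, PiLp.norm_single] at hx
    simp only [Real.norm_eq_abs, norm_one, mul_one, abs_le, not_and, not_le] at hx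
    rcases le_or_gt (-(a + 2)) (x 0) with h | h
    · exact hv2 x (by linarith [hx h])
    · rw [hv1 x (by linarith), hwx, max_eq_right (show x 0 ≤ 0 by linarith),
        max_eq_right (by linarith), mul_zero]
  have key := hmin.energyR_le hC (memLp_lipschitz hvD 0 R)
    (hasWeakGrad_pd hvD Metric.isBounded_ball) (Eventually.of_forall fun x => by
      rcases le_total (x 0) 1 with h | h
      · rw [hv1 x h]; exact le_max_right _ _
      · rw [hv2 x h, hwx]; exact mul_nonneg ha.le (le_max_right _ _)) hK
  rw [energyR_eq hC, energyR_eq hvD] at key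
  set B := Metric.ball (0 : Euc 1) R with hB
  have hfin := isFiniteMeasure_restrict (d := 1) (B := B) Metric.isBounded_ball
  set T : Set (Euc 1) := {x | x 0 ∈ Set.Ioo (0 : ℝ) 1} with hT
  set S : Set (Euc 1) := {x | x 0 ∈ Set.Ioo (1 - a) 1} with hS
  have hTm : MeasurableSet T := measurableSet_coord _ measurableSet_Ioo
  have hSm : MeasurableSet S := measurableSet_coord _ measurableSet_Ioo
  have hiw : IntegrableOn (fun x => pd 0 w x ^ 2 +
      (posSet w).indicator (fun _ => (1 : ℝ)) x) B :=
    ((memLp_pd hC Metric.isBounded_ball 0).integrable_sq).add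
      ((integrable_const _).indicator (isOpen_lt continuous_const hC.continuous).measurableSet)
  have hiv : IntegrableOn (fun x => pd 0 v x ^ 2 +
      (posSet v).indicator (fun _ => (1 : ℝ)) x) B :=
    ((memLp_pd hvD Metric.isBounded_ball 0).integrable_sq).add
      ((integrable_const _).indicator (isOpen_lt continuous_const hvD.continuous).measurableSet)
  have hnull : ∀ t : ℝ, ∀ᵐ x ∂(volume : Measure (Euc 1)), x 0 ≠ t := fun t => by
    rw [ae_iff]
    simpa using volume_coord {t} (measurableSet_singleton t)
  have hdiff : ∀ᵐ x ∂volume.restrict B,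
      (pd 0 w x ^ 2 + (posSet w).indicator (fun _ => (1 : ℝ)) x) -
        (pd 0 v x ^ 2 + (posSet v).indicator (fun _ => (1 : ℝ)) x) =
      T.indicator (fun _ => a ^ 2 + 1) x - S.indicator (fun _ => (2 : ℝ)) x := by
    refine ae_restrict_of_ae ?_
    filter_upwards [hnull 0, hnull 1, hnull (1 - a)] with x h0 h1 h2
    have hcont : Continuous fun y : Euc 1 => y 0 := PiLp.continuous_apply 2 _ 0
    have ew : pd 0 w x ^ 2 + (posSet w).indicator (fun _ => (1 : ℝ)) x =
        if 0 < x 0 then a ^ 2 + 1 else 0 := by
      rcases lt_or_gt_of_ne h0 with h | h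
      · have e : w =ᶠ[𝓝 x] fun y => 0 * y 0 + 0 := by
          filter_upwards [hcont.continuousAt.eventually (gt_mem_nhds h)] with y hy
          simp [hwx, hy.le]
        rw [pd_affine e, if_neg h.not_gt, Set.indicator_of_notMem]
        · ring
        · show ¬ 0 < w x
          simp [hwx, h.le]
      · have e : w =ᶠ[𝓝 x] fun y => a * y 0 + 0 := by
          filter_upwards [hcont.continuousAt.eventually (lt_mem_nhds h)] with y hy
          simp [hwx, hy.le]
        rw [pd_affine e, if_pos h, Set.indicator_of_mem]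
        show 0 < w x
        rw [hwx, max_eq_left h.le]
        positivity
    rcases lt_or_gt_of_ne h1 with hx1 | hx1
    · have ev : pd 0 v x ^ 2 + (posSet v).indicator (fun _ => (1 : ℝ)) x =
          if 1 - a < x 0 then 2 else 0 := by
        rcases lt_or_gt_of_ne h2 with h | h
        · have e : v =ᶠ[𝓝 x] fun y => 0 * y 0 + 0 := by
            filter_upwards [hcont.continuousAt.eventually (gt_mem_nhds h),
              hcont.continuousAt.eventually (gt_mem_nhds hx1)] with y hy hy1
            rw [hv1 y hy1.le, max_eq_right (by linarith)]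
            ring
          rw [pd_affine e, if_neg h.not_gt, Set.indicator_of_notMem]
          · ring
          · show ¬ 0 < v x
            rw [hv1 x hx1.le, max_eq_right (by linarith)]
            simp
        · have e : v =ᶠ[𝓝 x] fun y => 1 * y 0 + -(1 - a) := by
            filter_upwards [hcont.continuousAt.eventually (lt_mem_nhds h),
              hcont.continuousAt.eventually (gt_mem_nhds hx1)] with y hy hy1
            rw [hv1 y hy1.le, max_eq_left (by linarith)]
            ring
          rw [pd_affine e, if_pos h, Set.indicator_of_mem]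
          · ring
          · show 0 < v x
            rw [hv1 x hx1.le, max_eq_left (by linarith)]
            linarith
      rw [ew, ev]
      simp only [hT, hS, Set.indicator_apply, Set.mem_ofPred_eq, Set.mem_Ioo, hx1, and_true]
    · have e : v =ᶠ[𝓝 x] w := by
        filter_upwards [hcont.continuousAt.eventually (lt_mem_nhds hx1)] with y hy
        exact hv2 y hy.le
      have hT' : x ∉ T := fun h => h.2.not_gt hx1
      have hS' : x ∉ S := fun h => h.2.not_gt hx1
      rw [pd_congr e 0, Set.indicator_of_notMem hT', Set.indicator_of_notMem hS']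
      have hiff : x ∈ posSet v ↔ x ∈ posSet w := by
        show 0 < v x ↔ 0 < w x
        rw [hv2 x hx1.le]
      by_cases hw0 : x ∈ posSet w
      · rw [Set.indicator_of_mem hw0, Set.indicator_of_mem (hiff.2 hw0)]
        ring
      · rw [Set.indicator_of_notMem hw0, Set.indicator_of_notMem fun h => hw0 (hiff.1 h)]
        ring
  have h3 := integral_congr_ae hdiff
  rw [integral_sub hiw hiv, integral_sub ((integrable_const _).indicator hTm)
      ((integrable_const _).indicator hSm), integral_indicator_const _ hTm,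
    integral_indicator_const _ hSm, measureReal_restrict_apply hTm,
    measureReal_restrict_apply hSm] at h3
  have hsubT : T ∩ B = T := Set.inter_eq_left.2 fun x hx => by
    rw [hB, ball_eq]
    exact ⟨by linarith [hx.1], by linarith [hx.2]⟩
  have hsubS : S ∩ B = S := Set.inter_eq_left.2 fun x hx => by
    rw [hB, ball_eq]
    exact ⟨by linarith [hx.1], by linarith [hx.2]⟩
  rw [hsubT, hsubS, Measure.real, Measure.real, hT, hS, volume_coord _ measurableSet_Ioo,
    volume_coord _ measurableSet_Ioo, Real.volume_Ioo, Real.volume_Ioo, sub_zero,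
    show (1 : ℝ) - (1 - a) = a by ring, ENNReal.ofReal_one, ENNReal.toReal_one,
    ENNReal.toReal_ofReal ha.le, one_smul, smul_eq_mul] at h3
  have : 0 < (a - 1) ^ 2 := by
    have : a - 1 ≠ 0 := sub_ne_zero.2 hne
    positivity
  nlinarith

end LineMin

/-- Continuous homogeneous global minimizers on the line are zero or flat. -/
theorem contFlat_one : ContFlat 1 := by
  intro w hw hc hh
  have hn : ∀ x, 0 ≤ w x := fun x => by
    have h : (fun x => max (w x) 0) =ᵐ[volume] w := hw.1.mono fun y hy => max_eq_left hy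
    rw [← congr_fun ((Continuous.ae_eq_iff_eq volume (hc.max continuous_const) hc).1 h) x]
    exact le_max_right _ _
  have e := LineMin.eq_two hh
  set a := w LineMin.e₁
  set b := w (-LineMin.e₁)
  have ha : 0 ≤ a := hn _
  have hb : 0 ≤ b := hn _
  rcases ha.eq_or_lt with ha | ha <;> rcases hb.eq_or_lt with hb | hb
  · exact Or.inl fun x => by rw [e]; simp [LineMin.two, ← ha, ← hb]
  · refine Or.inr ⟨-LineMin.e₁, by simp [LineMin.e₁], fun x => ?_⟩
    have hneg : IsGlobalMinimizer (LineMin.two b 0) := by
      have h2 := LineMin.isGlobalMinimizer_neg hw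
      rw [e, ← ha] at h2
      convert h2 using 1
      funext y
      simp [LineMin.two]
    have h1 := LineMin.slope_one hb hneg
    rw [e, ← ha, h1, LineMin.two, inner_neg_left, LineMin.inner_e₁]
    ring
  · refine Or.inr ⟨LineMin.e₁, by simp [LineMin.e₁], fun x => ?_⟩
    have h1 := LineMin.slope_one ha (by rw [hb, ← e]; exact hw)
    rw [e, ← hb, h1, LineMin.two, LineMin.inner_e₁]
    ring
  · exact absurd (e ▸ hw) (LineMin.not_both ha hb)

namespace LineMin

/-- A measurable a.e. homogeneous function on the line is linear on each side. -/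
lemma exists_two {u : Euc 1 → ℝ} (hum : Measurable u) (hh : IsHomogeneousAE u) :
    ∃ a b, u =ᵐ[volume] two a b := by
  set μ : Measure ℝ := volume.restrict (Set.Ioi 0) with hμ
  have hsm : MeasurableSet {q : Euc 1 × ℝ | u (q.2 • q.1) = q.2 * u q.1} :=
    measurableSet_eq_fun (hum.comp (measurable_snd.smul measurable_fst))
      (measurable_snd.mul (hum.comp measurable_fst))
  have h1 : ∀ᵐ x ∂(volume : Measure (Euc 1)), ∀ᵐ r ∂μ, u (r • x) = r * u x := by
    refine (Measure.ae_ae_comm hsm).2 ?_
    filter_upwards [ae_restrict_mem measurableSet_Ioi] with r hr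
    exact hh r hr
  have pick : ∀ s : Set (Euc 1), volume s ≠ 0 →
      ∃ x ∈ s, ∀ᵐ r ∂μ, u (r • x) = r * u x := fun s hs => by
    by_contra h
    exact hs (measure_mono_null (fun x hx hp => h ⟨x, hx, hp⟩) (ae_iff.1 h1))
  obtain ⟨x, hx, hxp⟩ := pick {x | x 0 ∈ Set.Ioo (0 : ℝ) 1} (by
    rw [volume_coord _ measurableSet_Ioo, Real.volume_Ioo]; simp)
  obtain ⟨y, hy, hyn⟩ := pick {x | x 0 ∈ Set.Ioo (-1 : ℝ) 0} (by
    rw [volume_coord _ measurableSet_Ioo, Real.volume_Ioo]; simp)
  refine ⟨u x / x 0, u y / -(y 0), ?_⟩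
  have transfer : ∀ (P : ℝ → Prop) (k : ℝ), k ≠ 0 → (∀ᵐ r ∂μ, P r) →
      ∀ᵐ z ∂(volume : Measure (Euc 1)), 0 < z 0 / k → P (z 0 / k) := by
    intro P k hk hP
    rw [hμ, ae_restrict_iff' measurableSet_Ioi] at hP
    have hq : Measure.QuasiMeasurePreserving (fun t : ℝ => t / k) volume volume :=
      ⟨measurable_id.div_const k, by
        simp_rw [div_eq_inv_mul]
        rw [Real.map_volume_mul_left (inv_ne_zero hk)]
        exact Measure.smul_absolutelyContinuous⟩
    have h2 : Measure.QuasiMeasurePreserving (fun z : Euc 1 => z 0) volume volume :=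
      ((volume_preserving_funUnique (Fin 1) ℝ).comp
        (PiLp.volume_preserving_ofLp (Fin 1))).quasiMeasurePreserving
    exact (hq.comp h2).ae hP
  have t1 := transfer _ _ hx.1.ne' hxp
  have t2 := transfer _ _ hy.2.ne hyn
  have hnull : ∀ᵐ z ∂(volume : Measure (Euc 1)), z 0 ≠ 0 := by
    rw [ae_iff]
    simpa using volume_coord {(0 : ℝ)} (measurableSet_singleton 0)
  filter_upwards [t1, t2, hnull] with z hz1 hz2 hz0
  rcases lt_or_gt_of_ne hz0 with h | h
  · have hpos : 0 < z 0 / y 0 := div_pos_of_neg_of_neg h hy.2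
    have e : (z 0 / y 0) • y = z := by
      calc (z 0 / y 0) • y = (z 0 / y 0) • y 0 • e₁ := congrArg _ (eq_smul y)
        _ = z := by rw [smul_smul, div_mul_cancel₀ _ hy.2.ne, ← eq_smul z]
    have := hz2 hpos
    rw [e] at this
    rw [this, two, max_eq_right h.le, max_eq_left (by linarith)]
    field_simp
    ring
  · have hpos : 0 < z 0 / x 0 := div_pos h hx.1
    have e : (z 0 / x 0) • x = z := by
      calc (z 0 / x 0) • x = (z 0 / x 0) • x 0 • e₁ := congrArg _ (eq_smul x)
        _ = z := by rw [smul_smul, div_mul_cancel₀ _ hx.1.ne', ← eq_smul z]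
    have := hz1 hpos
    rw [e] at this
    rw [this, two, max_eq_left h.le, max_eq_right (by linarith)]
    field_simp
    ring

end LineMin

/-- Homogeneous global minimizers on the line are zero or flat up to null sets. -/
theorem minimizersFlat_one : MinimizersFlat 1 := by
  intro u hu hh
  have hum : AEMeasurable u volume := by
    have hU : (⋃ n : ℕ, Metric.ball (0 : Euc 1) n) = Set.univ :=
      Set.iUnion_eq_univ_iff.2 fun x => by
        obtain ⟨n, hn⟩ := exists_nat_gt ‖x‖
        exact ⟨n, by simpa using hn⟩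
    rw [← Measure.restrict_univ (μ := (volume : Measure (Euc 1))), ← hU, aemeasurable_iUnion_iff]
    exact fun n => (hu.2 0 n).1.1.aestronglyMeasurable.aemeasurable
  have huv := hum.ae_eq_mk
  have hh' : IsHomogeneousAE (hum.mk u) := by
    intro r hr
    have hq : Measure.QuasiMeasurePreserving (fun x : Euc 1 => r • x) volume volume :=
      ⟨measurable_const_smul r, by
        rw [Measure.map_addHaar_smul _ hr.ne']
        exact Measure.smul_absolutelyContinuous⟩
    filter_upwards [hh r hr, huv, hq.ae_eq_comp huv] with x h1 h2 h3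
    simp only [Function.comp_apply] at h3
    rw [← h3, ← h2, h1]
  obtain ⟨a, b, hab⟩ := LineMin.exists_two hum.measurable_mk hh'
  have hw : u =ᵐ[volume] LineMin.two a b := huv.trans hab
  obtain ⟨C, hC⟩ := LineMin.exists_lipschitz_two a b
  have hhom : IsHomogeneous (LineMin.two a b) :=
    hh.isHomogeneous (Filter.EventuallyEq.symm hw) hC.continuous
  rcases contFlat_one _ (hu.congr_ae (Filter.EventuallyEq.symm hw)) hC.continuous hhom with
    h | ⟨e, he, h⟩
  · exact Or.inl (hw.trans (Eventually.of_forall h))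
  · exact Or.inr ⟨e, he, hw.trans (Eventually.of_forall h)⟩

end Vale.Agent.P098
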