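import Vale.Agent.P098.Regularity.Defs

/-!
P098: translation and scaling of global minimizers and of regular representatives.
-/

open MeasureTheory Filter
open scoped Topology ContDiff NNReal RealInnerProductSpace

namespace Vale.Agent.P098

variable {d : ℕ} {u w : Euc d → ℝ} {x₀ : Euc d} {r : ℝ}

/-- The affine map behind `rescale`. -/
noncomputable def dilMap (x₀ : Euc d) (r : ℝ) (hr : r ≠ 0) : Euc d ≃ₜ Euc d :=
  (Homeomorph.smulOfNeZero r hr).trans (Homeomorph.addLeft x₀)

lemma dilMap_apply (hr : r ≠ 0) (x : Euc d) : dilMap x₀ r hr x = x₀ + r • x := rfl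

lemma map_dilMap (hr : 0 < r) :
    Measure.map (dilMap x₀ r hr.ne') volume = ENNReal.ofReal (r ^ d)⁻¹ • volume := by
  have h1 : (⇑(dilMap x₀ r hr.ne') : Euc d → Euc d) = (fun y => x₀ + y) ∘ fun x => r • x := rfl
  rw [h1, ← Measure.map_map (measurable_const_add x₀) (measurable_const_smul r),
    Measure.map_addHaar_smul _ hr.ne', Measure.map_smul, map_add_left_eq_self,
    finrank_euclideanSpace_fin, abs_of_pos (inv_pos.2 (pow_pos hr d))]

lemma preimage_dilMap_ball (hr : 0 < r) (c : Euc d) (R : ℝ) :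
    dilMap x₀ r hr.ne' ⁻¹' Metric.ball (x₀ + r • c) (r * R) = Metric.ball c R := by
  ext x
  simp [dilMap_apply, dist_eq_norm, ← smul_sub, norm_smul, abs_of_pos hr, hr]

lemma map_restrict_ball (hr : 0 < r) (c : Euc d) (R : ℝ) :
    Measure.map (dilMap x₀ r hr.ne') (volume.restrict (Metric.ball c R)) =
      ENNReal.ofReal (r ^ d)⁻¹ • volume.restrict (Metric.ball (x₀ + r • c) (r * R)) := by
  rw [← Measure.restrict_smul, ← map_dilMap hr,
    Measure.restrict_map (dilMap x₀ r hr.ne').continuous.measurable measurableSet_ball,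
    preimage_dilMap_ball hr]

lemma scale_ne (hr : 0 < r) : ENNReal.ofReal (r ^ d)⁻¹ ≠ 0 := by
  simp only [ne_eq, ENNReal.ofReal_eq_zero, not_le]
  positivity

lemma memLp_comp_dilMap (hr : 0 < r) {f : Euc d → ℝ} {c : Euc d} {R : ℝ}
    (hf : MemLp f 2 (volume.restrict (Metric.ball (x₀ + r • c) (r * R)))) :
    MemLp (fun x => f (x₀ + r • x)) 2 (volume.restrict (Metric.ball c R)) := by
  have h := hf.smul_measure (c := ENNReal.ofReal (r ^ d)⁻¹) ENNReal.ofReal_ne_top
  rw [← map_restrict_ball hr] at h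
  exact ((dilMap x₀ r hr.ne').measurableEmbedding.memLp_map_measure_iff).1 h

lemma integral_comp_dilMap (hr : 0 < r) (f : Euc d → ℝ) (c : Euc d) (R : ℝ) :
    ∫ x in Metric.ball c R, f (x₀ + r • x) =
      (r ^ d)⁻¹ * ∫ x in Metric.ball (x₀ + r • c) (r * R), f x := by
  have h := (dilMap x₀ r hr.ne').measurableEmbedding.integral_map
    (μ := volume.restrict (Metric.ball c R)) f
  rw [map_restrict_ball hr, integral_smul_measure,
    ENNReal.toReal_ofReal (by positivity), smul_eq_mul] at h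
  exact h.symm

lemma HasWeakGrad.rescale (hr : 0 < r) {f : Euc d → ℝ} {g : Fin d → Euc d → ℝ} {c : Euc d}
    {R : ℝ} (h : HasWeakGrad (Metric.ball (x₀ + r • c) (r * R)) f g) :
    HasWeakGrad (Metric.ball c R) (rescale f x₀ r) fun i x => g i (x₀ + r • x) := by
  refine ⟨fun i => memLp_comp_dilMap hr (h.1 i), fun i φ hφ hs hsub => ?_⟩
  set ψ : Euc d → ℝ := fun z => φ (r⁻¹ • (z - x₀)) with hψ
  have hcd : ContDiff ℝ ∞ ψ := hφ.comp ((contDiff_id.sub contDiff_const).const_smul r⁻¹)
  have e : ψ = φ ∘ (dilMap x₀ r hr.ne').symm := by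
    funext z
    have : (dilMap x₀ r hr.ne').symm z = r⁻¹ • (z - x₀) := by
      rw [Homeomorph.symm_apply_eq, dilMap_apply, smul_smul, mul_inv_cancel₀ hr.ne', one_smul,
        add_sub_cancel]
    simp [hψ, this]
  have hψs : HasCompactSupport ψ := e ▸ hs.comp_homeomorph (dilMap x₀ r hr.ne').symm
  have hψsub : tsupport ψ ⊆ Metric.ball (x₀ + r • c) (r * R) := by
    rw [e, tsupport_comp_eq_preimage φ (dilMap x₀ r hr.ne').symm]
    intro z hz
    have h2 := hsub hz
    rw [← preimage_dilMap_ball (x₀ := x₀) hr] at h2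
    simpa using h2
  have hpd : ∀ x, pd i ψ (x₀ + r • x) = r⁻¹ * pd i φ x := fun x => by
    have hd : HasFDerivAt (fun z : Euc d => r⁻¹ • (z - x₀))
        (r⁻¹ • ContinuousLinearMap.id ℝ (Euc d)) (x₀ + r • x) :=
      ((hasFDerivAt_id _).sub_const x₀).const_smul r⁻¹
    have hφd := (hφ.differentiable (by simp) (r⁻¹ • (x₀ + r • x - x₀))).hasFDerivAt
    have h2 : r⁻¹ • (x₀ + r • x - x₀) = x := by
      rw [add_sub_cancel_left, smul_smul, inv_mul_cancel₀ hr.ne', one_smul]
    have := (hφd.comp (x₀ + r • x) hd).fderiv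
    rw [h2] at this
    rw [hψ, pd, show (fun z => φ (r⁻¹ • (z - x₀))) = φ ∘ fun z => r⁻¹ • (z - x₀) from rfl, this]
    simp [pd]
  have key := h.2 i ψ hcd hψs hψsub
  have e1 : ∫ x in Metric.ball c R, Vale.Agent.P098.rescale f x₀ r x * pd i φ x =
      ∫ x in Metric.ball c R, (fun z => f z * pd i ψ z) (x₀ + r • x) :=
    integral_congr_ae (Eventually.of_forall fun x => by
      simp only [Vale.Agent.P098.rescale, hpd]
      field_simp)
  have e2 : ∫ x in Metric.ball c R, g i (x₀ + r • x) * φ x =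
      ∫ x in Metric.ball c R, (fun z => g i z * ψ z) (x₀ + r • x) :=
    integral_congr_ae (Eventually.of_forall fun x => by
      simp only [hψ, add_sub_cancel_left, smul_smul, inv_mul_cancel₀ hr.ne', one_smul])
  rw [e1, e2, integral_comp_dilMap hr (fun z => f z * pd i ψ z),
    integral_comp_dilMap hr (fun z => g i z * ψ z), key, mul_neg]

lemma rescale_inv (hr : r ≠ 0) (f : Euc d → ℝ) :
    rescale (rescale f x₀ r) (-(r⁻¹ • x₀)) r⁻¹ = f := by
  funext z
  have : x₀ + r • (-(r⁻¹ • x₀) + r⁻¹ • z) = z := by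
    rw [smul_add, smul_neg, smul_smul, smul_smul, mul_inv_cancel₀ hr, one_smul, one_smul]
    abel
  simp only [rescale, this]
  field_simp

lemma sobolevEnergy_rescale (hr : 0 < r) (f : Euc d → ℝ) (g : Fin d → Euc d → ℝ) (c : Euc d)
    (R : ℝ) : sobolevEnergy (rescale f x₀ r) (fun i x => g i (x₀ + r • x)) (Metric.ball c R) =
      ENNReal.ofReal (r ^ d)⁻¹ * sobolevEnergy f g (Metric.ball (x₀ + r • c) (r * R)) := by
  have e : posSet (rescale f x₀ r) = dilMap x₀ r hr.ne' ⁻¹' posSet f := by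
    ext x
    simp [posSet, rescale, dilMap_apply, hr]
  unfold sobolevEnergy
  rw [mul_add]
  congr 1
  · have h := (dilMap x₀ r hr.ne').measurableEmbedding.lintegral_map
      (μ := volume.restrict (Metric.ball c R)) fun z => ENNReal.ofReal (∑ i, g i z ^ 2)
    rw [map_restrict_ball hr, lintegral_smul_measure] at h
    exact h.symm
  · rw [e, ← (dilMap x₀ r hr.ne').measurableEmbedding.map_apply, map_restrict_ball hr,
      Measure.smul_apply, smul_eq_mul]

/-- Rescalings of global minimizers are global minimizers. -/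
theorem IsGlobalMinimizer.rescale (hu : IsGlobalMinimizer u) (hr : 0 < r) (x₀ : Euc d) :
    IsGlobalMinimizer (rescale u x₀ r) := by
  refine ⟨?_, fun c R => ?_⟩
  · have h1 : ∀ᵐ z ∂Measure.map (dilMap x₀ r hr.ne') volume, 0 ≤ u z := by
      rw [map_dilMap hr]
      exact Measure.ae_smul_measure hu.1 _
    filter_upwards [(dilMap x₀ r hr.ne').measurableEmbedding.ae_map_iff.1 h1] with x hx
    exact div_nonneg (by simpa [dilMap_apply] using hx) hr.le
  obtain ⟨⟨hu2, g₀, hg₀⟩, hmin⟩ := hu.2 (x₀ + r • c) (r * R)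
  refine ⟨⟨?_, _, hg₀.rescale hr⟩, fun v g h hg hv hh hnn hK => ?_⟩
  · show MemLp (fun x => u (x₀ + r • x) / r) 2 _
    simpa [div_eq_inv_mul] using (memLp_comp_dilMap hr hu2).const_mul r⁻¹
  set y₀ : Euc d := -(r⁻¹ • x₀) with hy₀
  have hr' : 0 < r⁻¹ := inv_pos.2 hr
  have hball : Metric.ball (y₀ + r⁻¹ • (x₀ + r • c)) (r⁻¹ * (r * R)) = Metric.ball c R := by
    rw [hy₀, smul_add, smul_smul, inv_mul_cancel₀ hr.ne', one_smul, ← mul_assoc,
      inv_mul_cancel₀ hr.ne', one_mul, neg_add_cancel_left]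
  have hg' : HasWeakGrad (Metric.ball (x₀ + r • c) (r * R)) u
      (fun i x => g i (y₀ + r⁻¹ • x)) := by
    have h' := HasWeakGrad.rescale (x₀ := y₀) hr' (c := x₀ + r • c) (R := r * R) (hball ▸ hg)
    rwa [rescale_inv hr.ne'] at h'
  have hh' : HasWeakGrad (Metric.ball (x₀ + r • c) (r * R)) (Vale.Agent.P098.rescale v y₀ r⁻¹)
      (fun i x => h i (y₀ + r⁻¹ • x)) := HasWeakGrad.rescale hr' (hball ▸ hh)
  have hv' : MemLp (Vale.Agent.P098.rescale v y₀ r⁻¹) 2
      (volume.restrict (Metric.ball (x₀ + r • c) (r * R))) := by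
    show MemLp (fun z => v (y₀ + r⁻¹ • z) / r⁻¹) 2 _
    simpa [div_eq_inv_mul] using (memLp_comp_dilMap (x₀ := y₀) hr' (c := x₀ + r • c) (R := r * R)
      (hball ▸ hv)).const_mul r
  have push : ∀ P : Euc d → Prop, (∀ᵐ x ∂volume.restrict (Metric.ball c R), P x) →
      ∀ᵐ z ∂volume.restrict (Metric.ball (x₀ + r • c) (r * R)), P (y₀ + r⁻¹ • z) := by
    intro P hP
    refine (dilMap y₀ r⁻¹ hr'.ne').measurableEmbedding.ae_map_iff.1 ?_
    rw [map_restrict_ball hr', hball]
    exact Measure.ae_smul_measure hP _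
  obtain ⟨K, hKc, hKB, hKeq⟩ := hK
  have key := hmin (Vale.Agent.P098.rescale v y₀ r⁻¹) _ _ hg' hv' hh'
    ((push _ hnn).mono fun z hz => div_nonneg hz hr'.le)
    ⟨dilMap x₀ r hr.ne' '' K, hKc.image (dilMap x₀ r hr.ne').continuous, fun z hz => by
      obtain ⟨x, hx, rfl⟩ := hz
      have := hKB hx
      rwa [← preimage_dilMap_ball (x₀ := x₀) hr] at this, ?_⟩
  · have hgid : ∀ g : Fin d → Euc d → ℝ,
        (fun i x => g i (y₀ + r⁻¹ • (x₀ + r • x))) = g := fun g => by
      funext i x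
      rw [hy₀, smul_add, smul_smul, inv_mul_cancel₀ hr.ne', one_smul, neg_add_cancel_left]
    have hvid : Vale.Agent.P098.rescale (Vale.Agent.P098.rescale v y₀ r⁻¹) x₀ r = v := by
      have := rescale_inv (x₀ := y₀) hr'.ne' v
      rwa [hy₀, inv_inv, smul_neg, neg_neg, smul_smul, mul_inv_cancel₀ hr.ne', one_smul] at this
    have h1 := sobolevEnergy_rescale (x₀ := x₀) hr u (fun i x => g i (y₀ + r⁻¹ • x)) c R
    have h2 := sobolevEnergy_rescale (x₀ := x₀) hr (Vale.Agent.P098.rescale v y₀ r⁻¹)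
      (fun i x => h i (y₀ + r⁻¹ • x)) c R
    rw [hgid] at h1 h2
    rw [hvid] at h2
    rw [h1, h2]
    exact mul_le_mul' le_rfl key
  · filter_upwards [push _ hKeq] with z hz hzK
    have hnot : y₀ + r⁻¹ • z ∉ K := fun hm => hzK ⟨_, hm, by
      rw [dilMap_apply, hy₀, smul_add, smul_neg, smul_smul, smul_smul, mul_inv_cancel₀ hr.ne',
        one_smul, one_smul]
      abel⟩
    have e : x₀ + r • (y₀ + r⁻¹ • z) = z := by
      rw [hy₀, smul_add, smul_neg, smul_smul, smul_smul, mul_inv_cancel₀ hr.ne', one_smul,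
        one_smul]
      abel
    simp only [Vale.Agent.P098.rescale, hz hnot, e]
    field_simp

/-- Global minimality does not see null sets. -/
theorem IsGlobalMinimizer.congr_ae (hu : IsGlobalMinimizer u) (h : w =ᵐ[volume] u) :
    IsGlobalMinimizer w := by
  refine ⟨by filter_upwards [hu.1, h] with x hx hxw; rwa [hxw], fun c R => ?_⟩
  have hr := ae_restrict_of_ae (s := Metric.ball c R) h
  have hwg : ∀ {g : Fin d → Euc d → ℝ} {f f' : Euc d → ℝ},
      f' =ᵐ[volume.restrict (Metric.ball c R)] f → HasWeakGrad (Metric.ball c R) f g →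
        HasWeakGrad (Metric.ball c R) f' g := fun hf hg => ⟨hg.1, fun i φ a b e => by
    rw [← hg.2 i φ a b e]
    exact integral_congr_ae (hf.mono fun x hx => by simp only [hx])⟩
  obtain ⟨⟨h2, g₀, hg₀⟩, hmin⟩ := hu.2 c R
  refine ⟨⟨h2.ae_eq (Filter.EventuallyEq.symm hr), g₀, hwg hr hg₀⟩, fun v g k hg hv hk hnn hK => ?_⟩
  obtain ⟨K, hKc, hKB, hKeq⟩ := hK
  rw [sobolevEnergy_congr h]
  exact hmin v g k (hwg (Filter.EventuallyEq.symm hr) hg) hv hk hnn ⟨K, hKc, hKB, by
    filter_upwards [hKeq, hr] with x hx hxw hxK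
    rw [hx hxK, hxw]⟩

/-- Rescalings about any point of a regular representative are regular, with the same constants. -/
theorem IsRegMin.rescale {L : ℝ≥0} {c : ℝ} (hu : IsRegMin L c u) (hr : 0 < r) (x₀ : Euc d) :
    IsRegMin L c (rescale u x₀ r) := by
  set v := Vale.Agent.P098.rescale u x₀ r with hv
  have hT : ∀ x, HasFDerivAt (fun z : Euc d => x₀ + r • z) (r • ContinuousLinearMap.id ℝ (Euc d)) x :=
    fun x => ((hasFDerivAt_id x).const_smul r).const_add x₀
  have hpos : ∀ x, x ∈ posSet v ↔ x₀ + r • x ∈ posSet u := fun x => by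
    simp [posSet, hv, Vale.Agent.P098.rescale, hr]
  have ho : IsOpen (posSet u) := isOpen_lt continuous_const hu.lip.continuous
  have hov : IsOpen (posSet v) := by
    have : posSet v = (fun x => x₀ + r • x) ⁻¹' posSet u := Set.ext hpos
    rw [this]
    exact ho.preimage (by fun_prop)
  have hp1 : ∀ i, ∀ x ∈ posSet v, pd i v x = pd i u (x₀ + r • x) := fun i x hx => by
    have hd := ((hu.smooth.contDiffAt (ho.mem_nhds ((hpos x).1 hx))).differentiableAt
      (by simp)).hasFDerivAt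
    have h := ((hd.comp x (hT x)).mul_const r⁻¹).fderiv
    rw [pd, show v = fun z => (u ∘ fun z => x₀ + r • z) z * r⁻¹ from
      funext fun z => by simp [hv, Vale.Agent.P098.rescale, div_eq_mul_inv], h]
    simp [pd, hr.ne']
  refine ⟨hu.minim.rescale hr x₀, fun x => div_nonneg (hu.nonneg _) hr.le, ?_, ?_, fun x hx => ?_,
    fun x hx s hs => ?_⟩
  · refine LipschitzWith.of_dist_le_mul fun x y => ?_
    have := hu.lip.dist_le_mul (x₀ + r • x) (x₀ + r • y)
    rw [Real.dist_eq] at this ⊢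
    rw [dist_add_left, dist_smul₀, Real.norm_eq_abs, abs_of_pos hr] at this
    rw [hv]
    simp only [Vale.Agent.P098.rescale, ← sub_div, abs_div, abs_of_pos hr]
    rw [div_le_iff₀ hr]
    linarith
  · intro x hx
    refine ContDiffAt.contDiffWithinAt ?_
    exact ((hu.smooth.contDiffAt (ho.mem_nhds ((hpos x).1 hx))).comp x
      (contDiffAt_const.add (contDiffAt_id.const_smul r))).div_const r
  · have h1 : ∀ i, pd i (pd i v) x = r * pd i (pd i u) (x₀ + r • x) := fun i => by
      have he : pd i v =ᶠ[𝓝 x] fun z => pd i u (x₀ + r • z) := by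
        filter_upwards [hov.mem_nhds hx] with z hz
        exact hp1 i z hz
      rw [pd_congr he i]
      have hd : DifferentiableAt ℝ (pd i u) (x₀ + r • x) :=
        (contDiffAt_pd ((hu.smooth.contDiffAt (ho.mem_nhds ((hpos x).1 hx))).of_le
          (WithTop.coe_le_coe.2 le_top)) (m := 1) (n := 2) le_rfl i).differentiableAt one_ne_zero
      have h2 := (hd.hasFDerivAt.comp x (hT x)).fderiv
      rw [pd, show (fun z => pd i u (x₀ + r • z)) = pd i u ∘ fun z => x₀ + r • z from rfl, h2]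
      simp [pd]
    simp [h1, ← Finset.mul_sum, hu.harmonic _ ((hpos x).1 hx)]
  · have hcl : x₀ + r • x ∈ closure (posSet u) :=
      map_mem_closure (f := fun z : Euc d => x₀ + r • z) (by fun_prop) hx
        fun z hz => (hpos z).1 hz
    obtain ⟨y, hy, hcy⟩ := hu.nondeg _ hcl (r * s) (mul_pos hr hs)
    refine ⟨r⁻¹ • (y - x₀), ?_, ?_⟩
    · rw [Metric.mem_closedBall, dist_eq_norm] at hy ⊢
      rw [show r⁻¹ • (y - x₀) - x = r⁻¹ • (y - (x₀ + r • x)) by
        rw [smul_sub, smul_sub, smul_add, smul_smul, inv_mul_cancel₀ hr.ne', one_smul]; abel,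
        norm_smul, Real.norm_eq_abs, abs_of_pos (inv_pos.2 hr), inv_mul_le_iff₀ hr]
      exact hy
    · show c * s ≤ u (x₀ + r • (r⁻¹ • (y - x₀))) / r
      rw [smul_smul, mul_inv_cancel₀ hr.ne', one_smul, add_sub_cancel, le_div_iff₀ hr]
      linarith

end Vale.Agent.P098
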