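import Vale.Agent.P098.Regularity.Assemble.Final
import Vale.Agent.P098.Regularity.B2.Main
import Vale.Agent.P098.Regularity.B3.Compact
import Vale.Agent.P098.Regularity.B3.Weiss
import Vale.Agent.P098.Regularity.B3.Split

/-!
P098: what the representative, compactness, monotonicity and splitting blocks leave to prove:
flatness, smoothness and the cones.
-/

open MeasureTheory Filter
open scoped Topology ContDiff NNReal RealInnerProductSpace

namespace Vale.Agent.P098

/-- Flatness, smoothness and flat cones give flat homogeneous global minimizers up to dimension six. -/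
theorem minimizersFlat_of_flatness (hF : ∀ d, 2 ≤ d → d ≤ 6 → FlatnessBlock d)
    (hR : ∀ d, 2 ≤ d → d ≤ 6 → SmoothBlock d) (hC : ∀ d, 2 ≤ d → d ≤ 6 → ConeBlock d) :
    ∀ d, 1 ≤ d → d ≤ 6 → ∀ u : Euc d → ℝ, IsGlobalMinimizer u →
      (∀ r : ℝ, 0 < r → ∀ᵐ x, u (r • x) = r * u x) →
        u =ᵐ[volume] 0 ∨ ∃ e : Euc d, ‖e‖ = 1 ∧ u =ᵐ[volume] fun x => max ⟪e, x⟫ 0 :=
  homogeneous_minimizers_flat_of_blocks
    (fun d h h6 => ⟨representativeBlock d, compactBlock d, weissBlock d, hF d h h6, hR d h h6⟩)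
    (fun d _ _ => splitBlock d) hC

end Vale.Agent.P098
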